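import Vale.Agent.P215Z.Frm.Basic
import Vale.Agent.P215Z.Alg.TrLog

/-!
# P215: logarithms of unipotent elements
-/

noncomputable section
namespace Vale.Agent.P215Z
open MvPolynomial Classical
variable {O : Type} [CommRing O] [Algebra ℚ O]

theorem lg_one {B : Type} [Ring B] [Algebra ℚ B] : lg (1 : B) = 0 := by simp [lg]

theorem lg_eq_sum {B : Type} [Ring B] [Algebra ℚ B] (x : B) (m : ℕ) (h : (x - 1) ^ m = 0) :
    lg x = ∑ j ∈ Finset.range m, ((-1 : ℚ) ^ j / (j + 1)) • (x - 1) ^ (j + 1) := by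
  refine finsum_eq_sum_of_support_subset _ fun j hj => ?_
  by_contra hm
  have hm' : m ≤ j + 1 := by
    simp only [Finset.coe_range, Set.mem_Iio] at hm
    omega
  exact hj (by simp only [pow_eq_zero_of_le hm' h, smul_zero])

namespace LogAux

variable {B V : Type} [Ring B] [Algebra ℚ B] [AddCommGroup V] [Module ℚ V]

theorem lg_eq {x : B} {m : ℕ} (h : (x - 1) ^ m = 0) : lg x = TrLog.lg m (x - 1) := lg_eq_sum x m h

theorem lg_add {x : B} {m : ℕ} (h : x ^ m = 0) : lg (1 + x) = TrLog.lg m x := by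
  rw [lg_eq (m := m) (by rwa [add_sub_cancel_left]), add_sub_cancel_left]

/-- the span of the long words -/
def Wd (x y : B) (k : ℕ) : Submodule ℚ B :=
  Submodule.span ℚ {p | ∃ w : List B, k ≤ w.length ∧ (∀ z ∈ w, z = x ∨ z = y) ∧ w.prod = p}

theorem Wd_mul (x y : B) {k l n : ℕ} (h : n ≤ k + l) : Wd x y k * Wd x y l ≤ Wd x y n := by
  rw [Wd, Wd, Submodule.span_mul_span]
  refine Submodule.span_mono ?_
  rintro _ ⟨_, ⟨w, h1, h2, rfl⟩, _, ⟨w', h1', h2', rfl⟩, rfl⟩
  refine ⟨w ++ w', by rw [List.length_append]; omega, fun z hz => ?_, List.prod_append⟩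
  exact (List.mem_append.1 hz).elim (h2 z) (h2' z)

theorem Wd_pow (x y : B) (k : ℕ) : Wd x y 1 ^ k ≤ Wd x y k := by
  induction k with
  | zero =>
    rw [pow_zero, Submodule.one_le]
    exact Submodule.subset_span ⟨[], le_rfl, by simp, rfl⟩
  | succ k ih =>
    rw [pow_succ]
    exact (mul_le_mul' ih le_rfl).trans (Wd_mul x y le_rfl)

theorem tr_mul (τ : B →ₗ[ℚ] V) (hτ : ∀ x y, τ (x * y) = τ (y * x)) {x y : B} (m : ℕ)
    (hm : ∀ w : List B, w.length = m → (∀ z ∈ w, z = x ∨ z = y) → w.prod = 0) :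
    (x ^ m = 0 ∧ y ^ m = 0 ∧ (x + y + x * y) ^ m = 0) ∧
      τ (TrLog.lg m (x + y + x * y)) = τ (TrLog.lg m x) + τ (TrLog.lg m y) := by
  have h0 : Wd x y 1 ^ m = ⊥ := by
    refine le_bot_iff.1 ((Wd_pow x y m).trans (Submodule.span_le.2 ?_))
    rintro _ ⟨w, h1, h2, rfl⟩
    rw [← List.take_append_drop m w, List.prod_append,
      hm (w.take m) (by rw [List.length_take]; omega) fun z hz => h2 z (List.mem_of_mem_take hz),
      zero_mul]
    exact zero_mem _
  have hx : x ∈ Wd x y 1 := Submodule.subset_span ⟨[x], le_rfl, by simp, by simp⟩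
  have hy : y ∈ Wd x y 1 := Submodule.subset_span ⟨[y], le_rfl, by simp, by simp⟩
  have hJ : Wd x y 1 * Wd x y 1 ≤ Wd x y 1 := Wd_mul x y (by omega)
  have nil : ∀ z ∈ Wd x y 1, z ^ m = 0 := fun z hz => by
    have := Submodule.pow_mem_pow _ hz m
    rwa [h0] at this
  exact ⟨⟨nil x hx, nil y hy, nil _ (add_mem (add_mem hx hy) (hJ (Submodule.mul_mem_mul hx hy)))⟩,
    TrLog.tr_lg_mul τ hτ _ hJ h0 hx hy⟩

/-- the first variation of the logarithm under a functional -/
theorem tr_dlg (τ : B →ₗ[ℚ] V) (z h : B)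
    (hc : ∀ i j : ℕ, τ (z ^ i * h * z ^ j) = τ (z ^ (i + j) * h))
    (h2 : ∀ k j : ℕ, τ (((z + h) ^ k - z ^ k) * h * z ^ j) = 0) (N : ℕ) :
    τ (TrLog.lg N (z + h) - TrLog.lg N z) = τ (TrLog.iv N z * h) := by
  have key : ∀ k j : ℕ, τ (((z + h) ^ (k + 1) - z ^ (k + 1)) * z ^ j) =
      ((k : ℚ) + 1) • τ (z ^ (k + j) * h) := by
    intro k
    induction k with
    | zero =>
      intro j
      have := hc 0 j
      simp only [pow_zero, one_mul] at this
      simp [this]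
    | succ k ih =>
      intro j
      have e : ((z + h) ^ (k + 1 + 1) - z ^ (k + 1 + 1)) * z ^ j =
          ((z + h) ^ (k + 1) - z ^ (k + 1)) * z ^ (j + 1) + z ^ (k + 1) * h * z ^ j +
            ((z + h) ^ (k + 1) - z ^ (k + 1)) * h * z ^ j := by
        rw [pow_succ (z + h) (k + 1), pow_succ z (k + 1), pow_succ' z j]
        noncomm_ring
      rw [e, map_add, map_add, ih, hc, h2, add_zero, show k + (j + 1) = k + 1 + j by ring]
      push_cast
      rw [add_smul ((k : ℚ) + 1) 1, one_smul]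
  simp only [TrLog.lg, TrLog.iv, ← Finset.sum_sub_distrib, ← smul_sub, map_sum, map_smul,
    Finset.sum_mul]
  refine Finset.sum_congr rfl fun k _ => ?_
  have h1 := key k 0
  rw [pow_zero, mul_one, add_zero] at h1
  have hk : (k : ℚ) + 1 ≠ 0 := by positivity
  rw [h1, smul_smul, div_mul_cancel₀ _ hk, neg_pow z, mul_assoc]
  have : ((-1 : B)) ^ k * (z ^ k * h) = ((-1 : ℚ) ^ k) • (z ^ k * h) := by
    rw [Algebra.smul_def, map_pow, map_neg, map_one]
  rw [this, map_smul]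

end LogAux

open LogAux

theorem map_lg {B B' : Type} [Ring B] [Algebra ℚ B] [Ring B'] [Algebra ℚ B'] (f : B →+* B') (x : B)
    (h : IsNilpotent (x - 1)) : f (lg x) = lg (f x) := by
  obtain ⟨m, hm⟩ := h
  have e : f x - 1 = f (x - 1) := by rw [map_sub, map_one]
  rw [lg_eq hm, lg_eq (m := m) (by rw [e, ← map_pow, hm, map_zero]), e]
  exact TrLog.map_lg f.toRatAlgHom m (x - 1)

theorem lg_Ad {B : Type} [Ring B] [Algebra ℚ B] (g : Bˣ) (x : B) (h : IsNilpotent (x - 1)) :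
    lg (Ad g x) = Ad g (lg x) := by
  have := map_lg (MulSemiringAction.toRingHom (ConjAct Bˣ) B (ConjAct.toConjAct g⁻¹)) x h
  simpa [ConjAct.units_smul_def, Ad] using this.symm

theorem lg_mem {B : Type} [Ring B] [Algebra ℚ B] (S : Subalgebra ℚ B) {x : B} (hx : x ∈ S)
    (h : IsNilpotent (x - 1)) : lg x ∈ S := by
  obtain ⟨m, hm⟩ := h
  rw [lg_eq_sum x m hm]
  exact sum_mem fun j _ => S.smul_mem (pow_mem (sub_mem hx (one_mem S)) _) _

/-- the logarithm is additive for traces -/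
theorem trace_lg_mul {B V : Type} [Ring B] [Algebra ℚ B] [AddCommGroup V] [Module ℚ V]
    (S : Subalgebra ℚ B) (τ : B →ₗ[ℚ] V) (hτ : ∀ x ∈ S, ∀ y ∈ S, τ (x * y) = τ (y * x))
    {x y : B} (hx : x ∈ S) (hy : y ∈ S) (m : ℕ)
    (hm : ∀ w : List B, w.length = m → (∀ z ∈ w, z = x ∨ z = y) → w.prod = 0) :
    τ (lg ((1 + x) * (1 + y))) = τ (lg (1 + x)) + τ (lg (1 + y)) := by
  obtain ⟨⟨h1, h2, h3⟩, -⟩ := tr_mul (0 : B →ₗ[ℚ] V) (fun _ _ => rfl) m hm
  obtain ⟨-, h⟩ := tr_mul (τ ∘ₗ S.val.toLinearMap) (fun x y => hτ x x.2 y y.2)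
    (x := ⟨x, hx⟩) (y := ⟨y, hy⟩) m (fun w hw hz => by
      refine Subtype.ext ?_
      change S.val w.prod = 0
      rw [map_list_prod]
      refine hm _ (by rw [List.length_map, hw]) fun z hz' => ?_
      obtain ⟨z', hz'', rfl⟩ := List.mem_map.1 hz'
      exact (hz z' hz'').imp (congrArg Subtype.val) (congrArg Subtype.val))
  have e : (1 + x) * (1 + y) = 1 + (x + y + x * y) := by noncomm_ring
  rw [e, lg_add h1, lg_add h2, lg_add h3]
  simp only [LinearMap.comp_apply, AlgHom.toLinearMap_apply, TrLog.map_lg] at h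
  exact h

variable {R : Type} [CommRing R] [Algebra ℚ R] {a b : Ideal R} (ha : IsNilpotent a) {g g' x : M2 R}

namespace LogAux

theorem qsmul {y : M2 R} (h : InC b y) (q : ℚ) : InC b (q • y) := by
  rw [← algebraMap_smul R q y]
  exact h.smul _

omit [Algebra ℚ R] in
theorem pow_sub {y y' : M2 R} (h : InC b (y - y')) (k : ℕ) : InC b (y ^ k - y' ^ k) := by
  induction k with
  | zero => rw [pow_zero, pow_zero, sub_self]; exact InC.zero
  | succ k ih => rw [pow_succ, pow_succ]; exact ih.mul_sub h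

omit [Algebra ℚ R] in
theorem lie_pow {z : M2 R} (h : InC b ⁅x, z⁆) (k : ℕ) : InC b ⁅x, z ^ k⁆ := by
  induction k with
  | zero => rw [pow_zero, Ring.lie_def, mul_one, one_mul, sub_self]; exact InC.zero
  | succ k ih =>
    have e : ⁅x, z ^ (k + 1)⁆ = ⁅x, z ^ k⁆ * z + z ^ k * ⁅x, z⁆ := by
      simp only [Ring.lie_def, pow_succ]
      noncomm_ring
    rw [e]
    exact (ih.mul_right _).add (h.mul_left _)

omit [Algebra ℚ R] in
theorem lie_sub_one (x g : M2 R) : ⁅x, g - 1⁆ = ⁅x, g⁆ := by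
  simp only [Ring.lie_def]
  noncomm_ring

/-- the bracket as a linear map -/
def br (x : M2 R) : M2 R →ₗ[ℚ] M2 R := LinearMap.mulLeft ℚ x - LinearMap.mulRight ℚ x

theorem br_apply (x y : M2 R) : br x y = ⁅x, y⁆ := rfl

/-- the terms of higher order -/
theorem first (D : M2 R →ₗ[ℚ] M2 R) (hn : IsNilpotent (g - 1))
    (h : ∀ j, InC b (D ((g - 1) ^ (j + 2)))) : InC b (D (lg g) - D (g - 1)) := by
  obtain ⟨m, hm⟩ := hn
  rw [lg_eq_sum g (m + 1) (by rw [pow_succ, hm, zero_mul]), Finset.sum_range_succ', map_add,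
    map_sum]
  simp only [pow_zero, Nat.cast_zero, zero_add, div_one, one_smul, pow_one, add_sub_cancel_right,
    map_smul]
  exact InC.sum _ _ fun j _ => qsmul (h j) _

include ha in
theorem of_lg (D : M2 R →ₗ[ℚ] M2 R) (hn : IsNilpotent (g - 1))
    (h : ∀ c : Ideal R, InC c (D (g - 1)) → ∀ j, InC (c * a) (D ((g - 1) ^ (j + 2))))
    (h0 : InC b (D (lg g))) : InC b (D (g - 1)) := by
  have key : ∀ k, InC (b ⊔ a ^ k) (D (g - 1)) := by
    intro k
    induction k with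
    | zero => exact fun _ _ => by simp
    | succ k ih =>
      have h1 : (b ⊔ a ^ k) * a ≤ b ⊔ a ^ (k + 1) := by
        rw [Ideal.sup_mul, pow_succ]
        exact sup_le_sup_right Ideal.mul_le_left _
      have h2 := (h0.mono le_sup_left).sub ((first D hn (h _ ih)).mono h1)
      rwa [sub_sub_cancel] at h2
  obtain ⟨m, hm⟩ := ha
  have := key m
  rwa [hm, Ideal.zero_eq_bot, sup_bot_eq] at this

end LogAux

include ha

set_option linter.unusedSectionVars false

theorem InC.prod_eq_zero : ∃ m : ℕ, ∀ w : List (M2 R), w.length = m → (∀ z ∈ w, InC a z) →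
    w.prod = 0 := by
  obtain ⟨m, hm⟩ := ha
  have key : ∀ w : List (M2 R), (∀ z ∈ w, InC a z) → InC (a ^ w.length) w.prod := by
    intro w
    induction w with
    | nil => exact fun _ _ _ => by simp
    | cons z w ih =>
      intro h
      rw [List.prod_cons, List.length_cons, pow_succ']
      exact (h z (by simp)).mul (ih fun y hy => h y (by simp [hy]))
  refine ⟨m, fun w hw h => inC_bot.1 ?_⟩
  have := key w h
  rwa [hw, hm] at this

theorem InC.isNilpotent (h : InC a x) : IsNilpotent x := by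
  obtain ⟨m, hm⟩ := InC.prod_eq_zero ha
  refine ⟨m, ?_⟩
  rw [← List.prod_replicate]
  exact hm _ List.length_replicate fun z hz => by rwa [List.eq_of_mem_replicate hz]

theorem lg_congr (hg : InC a (g - 1)) (hg' : InC a (g' - 1)) (h : InC b (g - g')) :
    InC b (lg g - lg g') := by
  obtain ⟨m, hm⟩ := hg.isNilpotent ha
  obtain ⟨m', hm'⟩ := hg'.isNilpotent ha
  rw [lg_eq_sum g (m + m') (by rw [pow_add, hm, zero_mul]),
    lg_eq_sum g' (m + m') (by rw [pow_add, hm', mul_zero]), ← Finset.sum_sub_distrib]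
  refine InC.sum _ _ fun j _ => ?_
  rw [← smul_sub]
  exact qsmul (pow_sub (by rwa [sub_sub_sub_cancel_right]) _) _

theorem lg_first (hg : InC a (g - 1)) (h : InC b (g - 1)) : InC (a * b) (lg g - (g - 1)) :=
  first LinearMap.id (hg.isNilpotent ha) fun j => by
    rw [LinearMap.id_apply, pow_succ', pow_succ']
    exact hg.mul (h.mul_right _)

theorem lg_first' (hg : InC a (g - 1)) (h : InC b (g - 1)) : InC (b ^ 2) (lg g - (g - 1)) :=
  first LinearMap.id (hg.isNilpotent ha) fun j => by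
    rw [pow_two, LinearMap.id_apply, pow_succ', pow_succ']
    exact h.mul (h.mul_right _)

theorem inC_of_lg (hg : InC a (g - 1)) (h : InC b (lg g)) : InC b (g - 1) :=
  of_lg ha LinearMap.id (hg.isNilpotent ha) (fun c hc j => by
    rw [LinearMap.id_apply, pow_succ', pow_succ']
    exact InC.mul hc (hg.mul_right _)) h

theorem lie_lg (hg : InC a (g - 1)) (h : InC b ⁅x, g⁆) : InC b ⁅x, lg g⁆ := by
  rw [← lie_sub_one] at h
  have h1 := (first (br x) (hg.isNilpotent ha) fun j => lie_pow h _).add h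
  rwa [br_apply, br_apply, sub_add_cancel] at h1

theorem lie_of_lg (hg : InC a (g - 1)) (h : InC b ⁅x, lg g⁆) : InC b ⁅x, g⁆ := by
  rw [← lie_sub_one]
  refine of_lg ha (br x) (hg.isNilpotent ha) (fun c hc j => ?_) h
  rw [br_apply] at hc ⊢
  have e : ⁅x, (g - 1) ^ (j + 2)⁆ =
      ⁅x, (g - 1) ^ (j + 1)⁆ * (g - 1) + (g - 1) * ((g - 1) ^ j * ⁅x, g - 1⁆) := by
    rw [← mul_assoc, ← pow_succ', pow_succ (g - 1) (j + 1)]
    simp only [Ring.lie_def]
    noncomm_ring
  rw [e]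
  refine ((lie_pow hc _).mul hg).add ?_
  rw [mul_comm c a]
  exact hg.mul (hc.mul_left _)

theorem dlog (u : (M2 R)ˣ) (hg : InC a ((u : M2 R) - 1)) (hg' : InC a (g' - 1))
    (h : InC b (g' - (u : M2 R))) (hx : InC b ⁅x, (u : M2 R)⁆) :
    Matrix.trace (x * (lg g' - lg (u : M2 R) - (↑u⁻¹ : M2 R) * (g' - (u : M2 R)))) ∈ b ^ 2 := by
  obtain ⟨m, hm⟩ := hg.isNilpotent ha
  obtain ⟨m', hm'⟩ := hg'.isNilpotent ha
  have h1 : ((u : M2 R) - 1) ^ (m + m') = 0 := by rw [pow_add, hm, zero_mul]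
  have h2 : (g' - 1) ^ (m + m') = 0 := by rw [pow_add, hm', mul_zero]
  have h3 : (↑u⁻¹ : M2 R) = TrLog.iv (m + m') ((u : M2 R) - 1) := by
    refine Units.inv_eq_of_mul_eq_one_left ?_
    have := TrLog.iv_mul' h1
    rwa [add_sub_cancel] at this
  rw [← lie_sub_one] at hx
  rw [lg_eq h1, lg_eq h2, h3,
    show g' - 1 = ((u : M2 R) - 1) + (g' - (u : M2 R)) by abel]
  generalize (u : M2 R) - 1 = z at *
  generalize g' - (u : M2 R) = y at *
  let τ : M2 R →ₗ[ℚ] R ⧸ b ^ 2 := (Ideal.Quotient.mkₐ ℚ (b ^ 2)).toLinearMap ∘ₗ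
    Matrix.traceLinearMap (Fin 2) ℚ R ∘ₗ LinearMap.mulLeft ℚ x
  have hτ : ∀ w, τ w = 0 ↔ Matrix.trace (x * w) ∈ b ^ 2 := fun w =>
    Ideal.Quotient.eq_zero_iff_mem
  rw [← hτ, map_sub, sub_eq_zero]
  refine tr_dlg τ z y (fun i j => ?_) (fun k j => ?_) _
  · rw [← sub_eq_zero, ← map_sub, hτ, mul_sub, Matrix.trace_sub, ← mul_assoc,
      Matrix.trace_mul_comm, ← Matrix.trace_sub]
    have e : z ^ j * (x * (z ^ i * y)) - x * (z ^ (i + j) * y) = -(⁅x, z ^ j⁆ * (z ^ i * y)) := by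
      rw [add_comm, pow_add, Ring.lie_def]
      noncomm_ring
    rw [e, pow_two]
    exact ((lie_pow hx j).mul (h.mul_left _)).neg.trace
  · rw [hτ, pow_two]
    exact ((((pow_sub (by rwa [add_sub_cancel_left]) k).mul h).mul_right _).mul_left _).trace

end Vale.Agent.P215Z
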