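import Vale.Agent.P215Z.Frm.Basic
import Vale.Agent.P215Z.Fm.Step

noncomputable section
namespace Vale.Agent.P215Z
open MvPolynomial Classical
variable {O : Type} [CommRing O] [Algebra ℚ O]

/-! F1b: transports -/
namespace F1b

theorem fc_self (p : Pt) (k : Fin 4) (c : Bool) :
    face p k c k = if c then p k + 1 else p k - 1 := Function.update_self ..

theorem fc_ne (p : Pt) {k j : Fin 4} (c : Bool) (h : j ≠ k) : face p k c j = p j :=
  Function.update_of_ne h ..

theorem fc_self_ne (p : Pt) (k : Fin 4) (c : Bool) : face p k c k ≠ p k := by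
  rw [fc_self]
  split_ifs <;> omega

theorem fc_inj {p : Pt} {k k' : Fin 4} {c c' : Bool} (h : face p k c = face p k' c') :
    k = k' ∧ c = c' := by
  obtain rfl : k = k' := by
    by_contra hk
    exact fc_self_ne p k c (by rw [h, fc_ne p c' hk])
  have h1 := congrFun h k
  rw [fc_self, fc_self] at h1
  refine ⟨rfl, ?_⟩
  cases c <;> cases c' <;> simp at h1 ⊢ <;> omega

theorem not_back {p : Pt} {k : Fin 4} (c : Bool) (h : Odd (p k)) :
    ¬ ∃ x : Fin 4 × Bool, Odd (face p k c x.1) ∧ p = face (face p k c) x.1 x.2 := by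
  rintro ⟨⟨j, c'⟩, h1, h2⟩
  by_cases hj : j = k
  · subst hj
    rw [fc_self] at h1
    rw [Int.odd_iff] at h h1
    split_ifs at h1 <;> omega
  · exact fc_self_ne p k c
      ((fc_ne (face p k c) c' (Ne.symm hj)).symm.trans (congrFun h2 k).symm)

theorem inn_eq (A : F1 O) (p : Pt) (k : Fin 4) (c : Bool) :
    inn A p k c = Fm.step k c (A p k) := rfl

theorem step_none (A : F1 O) {p p' : Pt} (h : ¬ ∃ k c, Odd (p' k) ∧ p = face p' k c)
    (h' : ¬ ∃ k c, Odd (p k) ∧ p' = face p k c) : step A p p' = 1 := by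
  rw [step, dif_neg fun ⟨x, hx⟩ => h ⟨x.1, x.2, hx⟩, dif_neg fun ⟨x, hx⟩ => h' ⟨x.1, x.2, hx⟩]

theorem padj_mem {K : Set Pt} (hK : Cx K) {v v' : Pt} (h : PAdj K v v') :
    v ∈ K ∧ midp v v' ∈ K ∧ v' ∈ K := by
  obtain ⟨h1, h2, k, h3⟩ := h
  have h4 := h1 k
  have key : ∀ (c : Bool) (w : Pt), Odd (midp v v' k) → (∀ j, j ≠ k → w j = midp v v' j) →
      w k = (if c then midp v v' k + 1 else midp v v' k - 1) → w ∈ K := by
    intro c w ho hw hw'
    have e : w = face (midp v v') k c := by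
      funext j
      by_cases hj : j = k
      · rw [hj, fc_self, hw']
      · rw [fc_ne _ _ hj, hw j hj]
    exact e ▸ hK _ h2 k c ho
  rw [Int.even_iff] at h4
  rcases h3 with rfl | rfl
  · have ho : Odd (midp v (v + 2 • ee k) k) := by
      rw [Int.odd_iff]
      simp [midp, ee]
      omega
    refine ⟨key false _ ho (fun j hj => ?_) ?_, h2, key true _ ho (fun j hj => ?_) ?_⟩ <;>
      simp [midp, ee, *] <;> omega
  · have ho : Odd (midp v (v - 2 • ee k) k) := by
      rw [Int.odd_iff]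
      simp [midp, ee]
      omega
    refine ⟨key true _ ho (fun j hj => ?_) ?_, h2, key false _ ho (fun j hj => ?_) ?_⟩ <;>
      simp [midp, ee, *] <;> omega

theorem upTo_mem {K : Set Pt} (hK : Cx K) {p : Pt} (hp : p ∈ K) (n : ℕ) : upTo p n ∈ K := by
  refine hK.isFace hp fun j => ?_
  unfold upTo wv
  split_ifs with h1 h2
  · exact Or.inl rfl
  · exact Or.inr ⟨h2, by simp⟩
  · exact Or.inl rfl

end F1b

open F1b

variable {a : Ideal O} (ha : IsNilpotent a) {K : Set Pt} {A A' : F1 O}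

theorem step_in (A : F1 O) {p : Pt} {k : Fin 4} (c : Bool) (h : Odd (p k)) :
    step A (face p k c) p = inn A p k c := by
  have h1 : ∃ x : Fin 4 × Bool, Odd (p x.1) ∧ face p k c = face p x.1 x.2 := ⟨(k, c), h, rfl⟩
  obtain ⟨e1, e2⟩ := fc_inj h1.choose_spec.2
  rw [step, dif_pos h1, ← e1, ← e2]
theorem step_out (A : F1 O) {p : Pt} {k : Fin 4} (c : Bool) (h : Odd (p k)) :
    step A p (face p k c) = (inn A p k c)⁻¹ := by
  have h1 : ∃ x : Fin 4 × Bool, Odd (p x.1) ∧ face p k c = face p x.1 x.2 := ⟨(k, c), h, rfl⟩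
  obtain ⟨e1, e2⟩ := fc_inj h1.choose_spec.2
  rw [step, dif_neg (not_back c h), dif_pos h1, ← e1, ← e2]
theorem step_self (A : F1 O) (p : Pt) : step A p p = 1 := by
  have h : ¬ ∃ k c, Odd (p k) ∧ p = face p k c := fun ⟨k, c, _, h⟩ =>
    fc_self_ne p k c (congrFun h k).symm
  exact step_none A h h
theorem step_symm (A : F1 O) (p p' : Pt) : step A p' p = (step A p p')⁻¹ := by
  by_cases h : ∃ k c, Odd (p' k) ∧ p = face p' k c
  · obtain ⟨k, c, h, rfl⟩ := h
    rw [step_in A c h, step_out A c h]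
  by_cases h' : ∃ k c, Odd (p k) ∧ p' = face p k c
  · obtain ⟨k, c, h', rfl⟩ := h'
    rw [step_in A c h', step_out A c h', inv_inv]
  rw [step_none A h h', step_none A h' h, inv_one]
theorem adj_cases {p p' : Pt} (h : Adj p p') : p' = p ∨
    (∃ k c, Odd (p k) ∧ p' = face p k c) ∨ ∃ k c, Odd (p' k) ∧ p = face p' k c := by
  have key : ∀ (p p' : Pt) (k : Fin 4), p' - p = ee k →
      (Odd (p k) ∧ p' = face p k true) ∨ (Odd (p' k) ∧ p = face p' k false) := by
    intro p p' k h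
    have h1 : p' k - p k = 1 := by simpa [ee] using congrFun h k
    have h2 : ∀ j, j ≠ k → p' j = p j := fun j hj => by
      simpa [ee, hj, sub_eq_zero] using congrFun h j
    rcases Int.even_or_odd (p k) with h3 | h3
    · refine Or.inr ⟨?_, funext fun j => ?_⟩
      · rw [Int.even_iff] at h3
        rw [Int.odd_iff]
        omega
      · by_cases hj : j = k
        · rw [hj, fc_self, if_neg Bool.false_ne_true]
          omega
        · rw [fc_ne _ _ hj, h2 j hj]
    · refine Or.inl ⟨h3, funext fun j => ?_⟩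
      by_cases hj : j = k
      · rw [hj, fc_self, if_pos rfl]
        omega
      · rw [fc_ne _ _ hj, h2 j hj]
  rcases h with h | ⟨k, h | h⟩
  · exact Or.inl (sub_eq_zero.1 h)
  · exact Or.inr ((key p p' k h).imp (fun h => ⟨k, _, h⟩) fun h => ⟨k, _, h⟩)
  · exact Or.inr ((key p' p k (by rw [← neg_sub, h, neg_neg])).symm.imp (fun h => ⟨k, _, h⟩)
      fun h => ⟨k, _, h⟩)
theorem step_eq_of_eq {p p' : Pt} (h : ∀ i, Odd (p i) → A p i = A' p i)
    (h' : ∀ i, Odd (p' i) → A p' i = A' p' i) : step A p p' = step A' p p' := by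
  by_cases h1 : ∃ k c, Odd (p' k) ∧ p = face p' k c
  · obtain ⟨k, c, h1, rfl⟩ := h1
    rw [step_in A c h1, step_in A' c h1, inn_eq, inn_eq, h' k h1]
  by_cases h2 : ∃ k c, Odd (p k) ∧ p' = face p k c
  · obtain ⟨k, c, h2, rfl⟩ := h2
    rw [step_out A c h2, step_out A' c h2, inn_eq, inn_eq, h k h2]
  rw [step_none A h1 h2, step_none A' h1 h2]
theorem holL_append {α G : Type} [Group G] (U : α → α → G) (l l' : List α) (x : α) :
    holL U (l ++ x :: l') = holL U (l ++ [x]) * holL U (x :: l') := by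
  induction l with
  | nil => exact (one_mul _).symm
  | cons y l ih =>
    cases l with
    | nil =>
      show U y x * holL U (x :: l') = U y x * 1 * holL U (x :: l')
      rw [mul_one]
    | cons z l =>
      show U y z * holL U (z :: l ++ x :: l') = U y z * holL U (z :: l ++ [x]) * _
      rw [ih, mul_assoc]
theorem holL_map {α β G : Type} [Group G] (U : β → β → G) (f : α → β) (l : List α) :
    holL U (l.map f) = holL (fun x y => U (f x) (f y)) l := by
  induction l with
  | nil => rfl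
  | cons y l ih =>
    cases l with
    | nil => rfl
    | cons z l => exact congrArg (U (f y) (f z) * ·) ih
theorem map_holL {α G G' : Type} [Group G] [Group G'] (φ : G →* G') (U : α → α → G) (l : List α) :
    φ (holL U l) = holL (fun x y => φ (U x y)) l := by
  induction l with
  | nil => exact map_one φ
  | cons y l ih =>
    cases l with
    | nil => exact map_one φ
    | cons z l => exact (map_mul φ _ _).trans (congrArg (φ (U y z) * ·) ih)
theorem map_holN {α G G' : Type} [Group G] [Group G'] (φ : G →* G') (U : α → α → G) (x : ℕ → α) (n : ℕ) :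
    φ (holN U x n) = holN (fun x y => φ (U x y)) x n := by
  induction n with
  | zero => exact map_one φ
  | succ n ih => exact (map_mul φ _ _).trans (congrArg (· * φ (U (x n) (x (n + 1)))) ih)
theorem holN_eq_holL {α G : Type} [Group G] (U : α → α → G) (x : ℕ → α) (n : ℕ) :
    holN U x n = holL U ((List.range (n + 1)).map x) := by
  induction n with
  | zero => rfl
  | succ n ih =>
    have e : (List.range (n + 1 + 1)).map x = (List.range n).map x ++ x n :: [x (n + 1)] := by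
      simp [List.range_succ]
    have e' : (List.range (n + 1)).map x = (List.range n).map x ++ [x n] := by
      simp [List.range_succ]
    rw [e, holL_append, ← e', ← ih]
    exact congrArg (holN U x n * ·) (mul_one _).symm

/-- units congruent to `1` -/
def UG (b : Ideal O) : Subgroup (MM O)ˣ where
  carrier := {g | InI b ((g : MM O) - 1)}
  mul_mem' := fun {g h} hg hh => by
    have h1 := Fm.MI_mul_sub (J := Fm.Cf b) (x := (g : MM O)) (y := (h : MM O)) hg hh
    rwa [mul_one] at h1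
  one_mem' := by
    show ((1 : (MM O)ˣ) : MM O) - 1 ∈ Fm.MC b
    rw [Units.val_one, sub_self]
    exact zero_mem _
  inv_mem' := fun {g} hg => Fm.MI_inv_sub (J := Fm.Cf b) (x := g) (y := 1) hg
theorem mem_UG {b : Ideal O} {g : (MM O)ˣ} : g ∈ UG b ↔ InI b ((g : MM O) - 1) := Iff.rfl
instance UG_normal (b : Ideal O) : (UG b).Normal := ⟨fun n hn g => by
  have h := Fm.MI_conj (J := Fm.Cf b) hn (g : MM O) (↑g⁻¹ : MM O)
  rw [mul_sub, sub_mul, mul_one, Units.mul_inv] at h
  exact h⟩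
theorem inI_sub_iff {b : Ideal O} (g g' : (MM O)ˣ) :
    InI b ((g : MM O) - g') ↔ g * g'⁻¹ ∈ UG b := by
  constructor
  · intro h
    have h1 := Fm.MI_mul_right (J := Fm.Cf b) h (↑g'⁻¹ : MM O)
    rw [sub_mul, Units.mul_inv] at h1
    exact h1
  · intro h
    have h1 := Fm.MI_mul_right (J := Fm.Cf b) h (g' : MM O)
    rw [sub_mul, one_mul, Units.val_mul, Units.inv_mul_cancel_right] at h1
    exact h1

include ha
theorem UG_nilpotent : Group.IsNilpotent (UG a) := by
  obtain ⟨n, hn⟩ := ha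
  refine (Subgroup.nilpotent_iff_finite_descending_central_series _).2
    ⟨n, fun m => (UG (a ^ (m + 1))).subgroupOf (UG a), ⟨?_, fun x m hx g => ?_⟩, ?_⟩
  · show (UG (a ^ (0 + 1))).subgroupOf (UG a) = ⊤
    rw [zero_add, pow_one, Subgroup.subgroupOf_self]
  · have h1 : ((x : (MM O)ˣ) : MM O) - 1 ∈ Fm.MC (a ^ (m + 1)) := hx
    have h2 : ((g : (MM O)ˣ) : MM O) - 1 ∈ Fm.MC a := g.2
    have h3 := sub_mem (Fm.MC_mul h1 h2) (Fm.MC_mul' h2 h1)
    rw [← pow_succ] at h3
    have h4 : (x.1 * g.1) * (g.1 * x.1)⁻¹ ∈ UG (a ^ (m + 1 + 1)) := by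
      refine (inI_sub_iff _ _).1 ?_
      have e : ((x.1 * g.1 : (MM O)ˣ) : MM O) - (g.1 * x.1 : (MM O)ˣ) =
          (x.1.1 - 1) * (g.1.1 - 1) - (g.1.1 - 1) * (x.1.1 - 1) := by
        rw [Units.val_mul, Units.val_mul]
        noncomm_ring
      rw [e]
      exact h3
    rw [mul_inv_rev, ← mul_assoc] at h4
    exact h4
  · refine (Subgroup.eq_bot_iff_forall _).2 fun x hx => ?_
    have h1 : ((x : (MM O)ˣ) : MM O) - 1 ∈ Fm.MC (a ^ (n + 1)) := hx
    rw [pow_succ, hn, zero_mul, Ideal.zero_eq_bot, Fm.MC_bot, sub_eq_zero] at h1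
    exact Subtype.ext (Units.ext h1)
theorem exists_unit {x : MM O} (h : InI a x) : ∃ g : (MM O)ˣ, (g : MM O) = 1 + x :=
  (Fm.Nl.of ha h).isNilpotent.isUnit_one_add
theorem inn_spec {p : Pt} {k : Fin 4} (c : Bool) (h : InI a (A p k)) :
    pd k (inn A p k c : MM O) = inn A p k c * A p k ∧ evM k c (inn A p k c : MM O) = 1 :=
  Fm.step_spec (Fm.Nl.of ha h)
theorem inn_unique {p : Pt} {k : Fin 4} {c : Bool} (h : InI a (A p k)) {T : MM O}
    (h1 : pd k T = T * A p k) (h2 : evM k c T = 1) : T = inn A p k c :=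
  Fm.eq_step (Fm.Nl.of ha h) h1 h2
theorem inn_mem {p : Pt} {k : Fin 4} (c : Bool) (h : InI a (A p k)) : inn A p k c ∈ UG a :=
  Fm.step_sub_one (Fm.Nl.of ha h) h
theorem inn_indep {p : Pt} {k j : Fin 4} (c : Bool) (h : InI a (A p k)) (hj : j ≠ k)
    (h0 : pd j (A p k) = 0) : pd j (inn A p k c : MM O) = 0 :=
  Fm.dM_step_ne (Fm.Nl.of ha h) hj h0
theorem inn_face (hA : Good1 K A) (hA' : In1 K a A) {p : Pt} (hp : p ∈ K) {k m : Fin 4}
    (hk : Odd (p k)) (hm : Odd (p m)) (hkm : k ≠ m) (c c' : Bool) :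
    evM m c' (inn A p k c : MM O) = inn A (face p m c') k c := by
  rw [inn_eq, inn_eq, hA.compat p hp m c' k hm hk hkm]
  exact Fm.evM_step_ne (Fm.Nl.of ha (hA' p hp k hk)) hkm.symm c'
theorem step_mem (hA : In1 K a A) {p p' : Pt} (hp : p ∈ K) (hp' : p' ∈ K) : step A p p' ∈ UG a := by
  by_cases h1 : ∃ k c, Odd (p' k) ∧ p = face p' k c
  · obtain ⟨k, c, h1, rfl⟩ := h1
    rw [step_in A c h1]
    exact inn_mem ha c (hA _ hp' k h1)
  by_cases h2 : ∃ k c, Odd (p k) ∧ p' = face p k c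
  · obtain ⟨k, c, h2, rfl⟩ := h2
    rw [step_out A c h2]
    exact inv_mem (inn_mem ha c (hA _ hp k h2))
  rw [step_none A h1 h2]
  exact one_mem _
theorem step_congr (hA : In1 K a A) (hA' : In1 K a A') {b : Ideal O} (h : In1 K b (A - A'))
    {p p' : Pt} (hp : p ∈ K) (hp' : p' ∈ K) : InI b ((step A p p' : MM O) - step A' p p') := by
  have key : ∀ q ∈ K, ∀ k c, Odd (q k) → InI b ((inn A q k c : MM O) - inn A' q k c) :=
    fun q hq k c hk => Fm.step_congr (Fm.Nl.of ha (hA' q hq k hk)) (Fm.Nl.of ha (hA q hq k hk))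
      (h q hq k hk)
  by_cases h1 : ∃ k c, Odd (p' k) ∧ p = face p' k c
  · obtain ⟨k, c, h1, rfl⟩ := h1
    rw [step_in A c h1, step_in A' c h1]
    exact key _ hp' k c h1
  by_cases h2 : ∃ k c, Odd (p k) ∧ p' = face p k c
  · obtain ⟨k, c, h2, rfl⟩ := h2
    rw [step_out A c h2, step_out A' c h2]
    exact Fm.MI_inv_sub (J := Fm.Cf b) (key _ hp k c h2)
  rw [step_none A h1 h2, step_none A' h1 h2, sub_self]
  exact zero_mem (Fm.MC b)
theorem holN_congr (hA : In1 K a A) (hA' : In1 K a A') {b : Ideal O} (h : In1 K b (A - A'))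
    (x : ℕ → Pt) (n : ℕ) (hx : ∀ i ≤ n, x i ∈ K) :
    InI b ((holN (step A) x n : (MM O)ˣ) - (holN (step A') x n : (MM O)ˣ) : MM O) := by
  induction n with
  | zero =>
    show ((1 : (MM O)ˣ) : MM O) - (1 : (MM O)ˣ) ∈ Fm.MC b
    rw [sub_self]
    exact zero_mem _
  | succ n ih =>
    exact Fm.MI_mul_sub (J := Fm.Cf b) (ih fun i hi => hx i (hi.trans (Nat.le_succ n)))
      (step_congr ha hA hA' h (hx n (Nat.le_succ n)) (hx _ le_rfl))
theorem holL_congr (hA : In1 K a A) (hA' : In1 K a A') {b : Ideal O} (h : In1 K b (A - A'))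
    (l : List Pt) (hl : ∀ p ∈ l, p ∈ K) :
    InI b ((holL (step A) l : (MM O)ˣ) - (holL (step A') l : (MM O)ˣ) : MM O) := by
  have h0 : ((1 : (MM O)ˣ) : MM O) - (1 : (MM O)ˣ) ∈ Fm.MC b := by
    rw [sub_self]
    exact zero_mem _
  induction l with
  | nil => exact h0
  | cons y l ih =>
    cases l with
    | nil => exact h0
    | cons z l =>
      exact Fm.MI_mul_sub (J := Fm.Cf b) (step_congr ha hA hA' h (hl y (by simp)) (hl z (by simp)))
        (ih fun p hp => hl p (List.mem_cons_of_mem _ hp))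
theorem holL_pe_congr (hK : Cx K) (hA : In1 K a A) (hA' : In1 K a A') {b : Ideal O}
    (h : In1 K b (A - A')) (l : List Pt) (hl : l.IsChain (PAdj K)) :
    InI b ((holL (pe A) l : (MM O)ˣ) - (holL (pe A') l : (MM O)ˣ) : MM O) := by
  have h0 : ((1 : (MM O)ˣ) : MM O) - (1 : (MM O)ˣ) ∈ Fm.MC b := by
    rw [sub_self]
    exact zero_mem _
  induction l with
  | nil => exact h0
  | cons y l ih =>
    cases l with
    | nil => exact h0
    | cons z l =>
      obtain ⟨h1, h2⟩ := List.isChain_cons_cons.1 hl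
      obtain ⟨h3, h4, h5⟩ := padj_mem hK h1
      exact Fm.MI_mul_sub (J := Fm.Cf b) (Fm.MI_mul_sub (J := Fm.Cf b)
        (step_congr ha hA hA' h h3 h4) (step_congr ha hA hA' h h4 h5)) (ih h2)
theorem Up_congr (hK : Cx K) (hA : In1 K a A) (hA' : In1 K a A') {b : Ideal O} (h : In1 K b (A - A'))
    {p : Pt} (hp : p ∈ K) : InI b ((Up A p : MM O) - Up A' p) :=
  holN_congr ha hA hA' h (upTo p) 4 fun i _ => upTo_mem hK hp i
theorem holL_pe_mem (hK : Cx K) (hA : In1 K a A) (l : List Pt) (hl : l.IsChain (PAdj K)) :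
    holL (pe A) l ∈ UG a := by
  induction l with
  | nil => exact one_mem _
  | cons y l ih =>
    cases l with
    | nil => exact one_mem _
    | cons z l =>
      obtain ⟨h1, h2⟩ := List.isChain_cons_cons.1 hl
      obtain ⟨h3, h4, h5⟩ := padj_mem hK h1
      exact mul_mem (mul_mem (step_mem ha hA h3 h4) (step_mem ha hA h4 h5)) (ih h2)
theorem Up_mem (hK : Cx K) (hA : In1 K a A) {p : Pt} (hp : p ∈ K) : Up A p ∈ UG a := by
  have key : ∀ n, holN (step A) (upTo p) n ∈ UG a := by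
    intro n
    induction n with
    | zero => exact one_mem _
    | succ n ih => exact mul_mem ih (step_mem ha hA (upTo_mem hK hp _) (upTo_mem hK hp _))
  exact key 4
theorem step_map {O' : Type} [CommRing O'] [Algebra ℚ O'] (χ : O →+* O') (hA : In1 K a A)
    {p p' : Pt} (hp : p ∈ K) (hp' : p' ∈ K) :
    (step (map1 χ A) p p' : MM O') = mapM χ (step A p p' : MM O) := by
  have key : ∀ q ∈ K, ∀ k c, Odd (q k) →
      Fm.mapM χ (inn A q k c : MM O) = (inn (map1 χ A) q k c : MM O') :=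
    fun q hq k c hk => Fm.mapM_step (Fm.Nl.of ha (hA q hq k hk)) χ
  by_cases h1 : ∃ k c, Odd (p' k) ∧ p = face p' k c
  · obtain ⟨k, c, h1, rfl⟩ := h1
    rw [step_in A c h1, step_in _ c h1]
    exact (key _ hp' k c h1).symm
  by_cases h2 : ∃ k c, Odd (p k) ∧ p' = face p k c
  · obtain ⟨k, c, h2, rfl⟩ := h2
    rw [step_out A c h2, step_out _ c h2]
    exact (Fm.map_inv_unit (Fm.mapM χ) (key _ hp k c h2)).symm
  rw [step_none A h1 h2, step_none _ h1 h2]
  exact (map_one (Fm.mapM χ)).symm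
theorem step_gauge (hK : Cx K) (hA : In1 K a A) {k : Pt → (MM O)ˣ}
    (hk : Good0 K fun p => (k p : MM O)) (hk' : ∀ p ∈ K, k p ∈ UG a) {p p' : Pt} (hp : p ∈ K)
    (hp' : p' ∈ K) (h : Adj p p') : step (gauge A k) p p' = (k p)⁻¹ * step A p p' * k p' := by
  have key : ∀ q ∈ K, ∀ m c, Odd (q m) →
      inn (gauge A k) q m c = (k (face q m c))⁻¹ * inn A q m c * k q := by
    intro q hq m c hm
    rw [mul_assoc, eq_inv_mul_iff_mul_eq]
    refine Units.ext ?_
    rw [Units.val_mul, Units.val_mul, hk.compat q hq m c hm]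
    exact Fm.step_gau (Fm.Nl.of ha (hA q hq m hm)) (Fm.Nl.of ha (hk' q hq))
  rcases adj_cases h with rfl | ⟨m, c, h1, rfl⟩ | ⟨m, c, h1, rfl⟩
  · rw [step_self, step_self, mul_one, inv_mul_cancel]
  · rw [step_out _ c h1, step_out _ c h1, key _ hp m c h1]
    group
  · rw [step_in _ c h1, step_in _ c h1, key _ hp' m c h1]
theorem In1.gauge (hA : In1 K a A) {k : Pt → (MM O)ˣ} (hk' : ∀ p ∈ K, k p ∈ UG a) :
    In1 K a (gauge A k) := by
  intro p hp i hi
  have h1 := Fm.MC_dM i (show (k p : MM O) - 1 ∈ Fm.MC a from hk' p hp)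
  rw [map_sub, Fm.dM_one, sub_zero] at h1
  exact add_mem (Fm.MI_conj (J := Fm.Cf a) (hA p hp i hi) _ _) (Fm.MI_mul_left _ h1)

end Vale.Agent.P215Z
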