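import Vale.Agent.P215Z.Frm.Flat.Up

noncomputable section
namespace Vale.Agent.P215Z
open MvPolynomial Classical
variable {O : Type} [CommRing O] [Algebra ℚ O]

/-! F2: flatness lemmas -/

/-- holonomy of the loop `p`, face in direction `k`, corner, face in direction `l`, `p` -/
def Lam4 (A : F1 O) (p : Pt) (k : Fin 4) (c : Bool) (l : Fin 4) (c' : Bool) : (MM O)ˣ :=
  step A p (face p k c) * step A (face p k c) (face (face p k c) l c') *
    step A (face (face p k c) l c') (face p l c') * step A (face p l c') p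

/-- two points are adjacent faces of a cell of `K` which is flat modulo `b` -/
def FlatStep (K : Set Pt) (A : F1 O) (b : Ideal O) (p p' : Pt) : Prop :=
  Adj p p' ∧ ∃ q ∈ K, FlatAt A b q ∧ IsFace p q ∧ IsFace p' q

variable {a : Ideal O} (ha : IsNilpotent a) {K : Set Pt} (hK : Cx K) {A : F1 O} (hA : Good1 K A)
  (hA' : In1 K a A) {b : Ideal O}

theorem isFace_wv (p : Pt) : IsFace (wv p) p := Flt.isFace_wv p
theorem isFace_upTo (p : Pt) (n : ℕ) : IsFace (upTo p n) p := Flt.isFace_upTo p n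
theorem adj_upTo (p : Pt) (n : ℕ) : Adj (upTo p n) (upTo p (n + 1)) := Flt.adj_upTo p n
theorem pe_symm (A : F1 O) (v v' : Pt) : pe A v' v = (pe A v v')⁻¹ := Flt.pe_symm A v v'

include hK hA
theorem FlatAt.face {p τ : Pt} (hp : p ∈ K) (h : FlatAt A b p) (hτ : IsFace τ p) : FlatAt A b τ :=
  fun i j hi hj => hA.curv.inI_face hK hp hτ h i j hi hj

include ha hA'
theorem plaq_flat {p : Pt} (hp : p ∈ K) {k l : Fin 4} (hk : Odd (p k)) (hl : Odd (p l)) (hkl : k ≠ l)
    (c c' : Bool) (h : InI b (curv A p k l)) : Lam4 A p k c l c' ∈ UG b := by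
  have hpk := hK p hp k c hk
  have hl' : Odd (face p k c l) := (Flt.face_ne p hkl.symm c).symm ▸ hl
  have hk' : Odd (face p l c' k) := (Flt.face_ne p hkl c').symm ▸ hk
  obtain ⟨s1, s2⟩ := inn_spec ha c (hA' p hp k hk)
  obtain ⟨s3, s4⟩ := inn_spec ha c' (hA' _ hpk l hl')
  have h0 := Flt.inn_even ha hA hA' hpk c' hl' (Flt.even_face hk c)
  have h1 : pd k ((inn A (face p k c) l c' : MM O) * (inn A p k c : MM O)) =
      (inn A (face p k c) l c' : MM O) * (inn A p k c : MM O) * A p k := by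
    rw [pd_mul, h0, zero_mul, zero_add, s1, mul_assoc]
  have h2 := Flt.cov_step (b := b) (k := l) ha c (hA' p hp k hk) h1
    (by rw [Flt.curv_swap]; exact InC.neg h) (by
      have h3 := pd_evM k l c ((inn A (face p k c) l c' : MM O) * (inn A p k c : MM O))
      rw [if_neg hkl.symm] at h3
      rw [evM_sub, ← h3, evM_mul, evM_mul, evM_mul, s2, mul_one, evM_of_pd h0,
        ← hA.compat p hp k c l hk hl hkl.symm, s3]
      exact Flt.sub_refl _)
  have h4 := Flt.ode_mod ha c' (hA' p hp l hl) h2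
  rw [evM_mul, s4, one_mul, inn_face ha hA hA' hp hk hl hkl, ← Units.val_mul, ← Units.val_mul,
    inI_sub_iff] at h4
  have h5 := (UG b).inv_mem ((UG_normal b).mem_comm h4)
  rw [Lam4, step_out A c hk, step_out A c' hl', Flt.face_comm p hkl, step_in A c hk',
    step_in A c' hl]
  simpa only [mul_inv_rev, inv_inv, mul_assoc] using h5
theorem cell_flat {p : Pt} (hp : p ∈ K) (h : FlatAt A b p) : ∃ g : Pt → (MM O)ˣ,
    g (wv p) = 1 ∧ g p = Up A p ∧ ∀ τ τ', IsFace τ p → IsFace τ' p → Adj τ τ' →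
      InI b ((g τ * step A τ τ' : (MM O)ˣ) - (g τ' : (MM O)ˣ) : MM O) := by
  obtain ⟨g, h1, h2, h3, _⟩ := Flt.frame ha hK hA hA' hp h
  exact ⟨g, h1, h2, h3⟩
theorem holN_eq_Up {p : Pt} (hp : p ∈ K) (h : FlatAt A b p) (x : ℕ → Pt) (n : ℕ) (h0 : x 0 = wv p)
    (hn : x n = p) (hx : ∀ i ≤ n, IsFace (x i) p) (hadj : ∀ i < n, Adj (x i) (x (i + 1))) :
    InI b ((holN (step A) x n : (MM O)ˣ) - (Up A p : (MM O)ˣ) : MM O) := by
  obtain ⟨g, h1, h2, h3⟩ := cell_flat ha hK hA hA' hp h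
  have h4 := Flt.holN_frame h3 x n hx hadj
  rwa [h0, h1, one_mul, hn, h2] at h4
theorem Up_indep {p : Pt} (hp : p ∈ K) {j : Fin 4} (hj : Even (p j)) : pd j (Up A p : MM O) = 0 :=
  Flt.up_indep ha hK hA hA' hp hj
theorem at0_Up {p : Pt} (hp : p ∈ K) : at0U (Up A p) = 1 := Flt.at0_up ha hK hA hA' hp
theorem Up_cov {p : Pt} (hp : p ∈ K) (h : FlatAt A b p) {k : Fin 4} (hk : Odd (p k)) :
    InI b (pd k (Up A p : MM O) - Up A p * A p k) := Flt.up_cov ha hK hA hA' hp h hk
theorem pe_const {v v' : Pt} (h : PAdj K v v') : (pe A v v' : MM O) = cst (at0 (pe A v v' : MM O)) :=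
  eq_cst_of_pd (Flt.pd_pe ha hA hA' h)
theorem holL_pe_const (l : List Pt) (hl : l.IsChain (PAdj K)) :
    ((holL (pe A) l : (MM O)ˣ) : MM O) = cst (at0 ((holL (pe A) l : (MM O)ˣ) : MM O)) := by
  refine eq_cst_of_pd fun j => ?_
  induction l with
  | nil => exact pd_one j
  | cons x l ih =>
    cases l with
    | nil => exact pd_one j
    | cons y l =>
      rw [List.isChain_cons_cons] at hl
      exact Flt.pd_mul_zero (Flt.pd_pe ha hA hA' hl.1 j) (ih hl.2)
theorem at0_step {p p' : Pt} (hp : p ∈ K) (hp' : p' ∈ K) (h : Adj p p') :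
    (wv p = wv p' ∧ at0U (step A p p') = 1) ∨
      (PAdj K (wv p) (wv p') ∧ at0U (step A p p') = at0U (pe A (wv p) (wv p'))) := by
  rcases adj_cases h with rfl | ⟨k, c, hk, rfl⟩ | ⟨k, c, hk, rfl⟩
  · exact Or.inl ⟨rfl, by rw [step_self, Flt.at0U_one]⟩
  · rcases Flt.at0_in ha hK hA hA' hp c hk with ⟨h1, h2⟩ | ⟨h1, h2⟩
    · exact Or.inl ⟨h1.symm, by rw [step_symm, Flt.at0U_inv, h2, inv_one]⟩
    · exact Or.inr ⟨Flt.pAdj_symm h1, by
        rw [step_symm, Flt.at0U_inv, h2, ← Flt.at0U_inv, ← pe_symm]⟩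
  · exact Flt.at0_in ha hK hA hA' hp' c hk
theorem shift_step {p p' : Pt} (h : FlatStep K A b p p') :
    InI b ((Up A p * step A p p' : (MM O)ˣ) - cst (at0 (step A p p' : MM O)) * Up A p') := by
  obtain ⟨hadj, q, hq, hF, hp, hp'⟩ := h
  obtain ⟨g, -, -, h3, h4⟩ := Flt.frame ha hK hA hA' hq hF
  have key : ∀ r, IsFace r q → InI b ((g (wv r) * Up A r : (MM O)ˣ) - (g r : (MM O)ˣ) : MM O) := by
    intro r hr
    have h5 := Flt.holN_frame h3 (upTo r) 4 (fun i _ => Flt.isFace_trans (isFace_upTo r i) hr)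
      fun i _ => adj_upTo r i
    rwa [Flt.upTo_four] at h5
  have h5 : InI b ((g (wv p) * Up A p * step A p p' : (MM O)ˣ) -
      (g (wv p') * Up A p' : (MM O)ˣ) : MM O) :=
    Flt.sub_trans (Flt.sub_trans (Flt.sub_mul_right (key p hp) _) (h3 p p' hp hp' hadj))
      (Flt.sub_symm (key p' hp'))
  have h6 := Flt.sub_mul_left h5 (↑(g (wv p))⁻¹ : MM O)
  rw [← Units.val_mul, ← Units.val_mul, mul_assoc (g (wv p)), inv_mul_cancel_left, ← mul_assoc,
    Units.val_mul _ (Up A p')] at h6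
  have h7 : (((g (wv p))⁻¹ * g (wv p') : (MM O)ˣ) : MM O) =
      cst (at0 (((g (wv p))⁻¹ * g (wv p') : (MM O)ˣ) : MM O)) := eq_cst_of_pd fun j =>
    Flt.pd_mul_zero
      (Flt.pd_inv_zero (h4 _ j (Flt.isFace_trans (isFace_wv p) hp) (Flt.even_wv p j)))
      (h4 _ j (Flt.isFace_trans (isFace_wv p') hp') (Flt.even_wv p' j))
  have h8 := h6.at0
  rw [Flt.at0_sub, at0_mul, Units.val_mul, at0_mul, ← coe_at0U (Up A p), ← coe_at0U (Up A p'),
    at0_Up ha hK hA hA' (hK.isFace hq hp), at0_Up ha hK hA hA' (hK.isFace hq hp'), Units.val_one,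
    one_mul, mul_one, ← inI_cst, Flt.cst_sub, ← h7] at h8
  exact Flt.sub_trans h6 (Flt.sub_mul_right (Flt.sub_symm h8) _)
theorem shift_holN (x : ℕ → Pt) (n : ℕ) (h0 : x 0 ∈ K)
    (h : ∀ i < n, FlatStep K A b (x i) (x (i + 1))) :
    InI b ((Up A (x 0) * holN (step A) x n : (MM O)ˣ) -
      cst (at0 ((holN (step A) x n : (MM O)ˣ) : MM O)) * Up A (x n)) := by
  induction n with
  | zero =>
    rw [holN, mul_one, Units.val_one, Flt.at0_one, Flt.cst_one, one_mul]
    exact Flt.sub_refl _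
  | succ n ih =>
    have h1 := Flt.sub_mul_right (ih fun i hi => h i (Nat.lt_succ_of_lt hi))
      (step A (x n) (x (n + 1)) : MM O)
    have h2 := Flt.sub_mul_left (shift_step ha hK hA hA' (h n (Nat.lt_succ_self n)))
      (cst (at0 ((holN (step A) x n : (MM O)ˣ) : MM O)))
    rw [Units.val_mul, ← mul_assoc, ← mul_assoc] at h2
    rw [holN, ← mul_assoc, Units.val_mul, Units.val_mul (holN (step A) x n), at0_mul, Flt.cst_mul]
    exact Flt.sub_trans h1 h2
theorem shift_holL (x : Pt) (l : List Pt) (h0 : x ∈ K) (h : (x :: l).IsChain (FlatStep K A b)) :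
    InI b ((Up A x * holL (step A) (x :: l) : (MM O)ˣ) -
      cst (at0 ((holL (step A) (x :: l) : (MM O)ˣ) : MM O)) * Up A ((x :: l).getLast (by simp))) := by
  induction l generalizing x with
  | nil =>
    rw [holL, mul_one, Units.val_one, Flt.at0_one, Flt.cst_one, one_mul]
    exact Flt.sub_refl _
  | cons y l ih =>
    rw [List.isChain_cons_cons] at h
    obtain ⟨q, hq, -, -, hy⟩ := h.1.2
    have h1 := Flt.sub_mul_right (shift_step ha hK hA hA' h.1)
      ((holL (step A) (y :: l) : (MM O)ˣ) : MM O)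
    have h2 := Flt.sub_mul_left (ih y (hK.isFace hq hy) h.2) (cst (at0 (step A x y : MM O)))
    rw [Units.val_mul, ← mul_assoc, ← mul_assoc] at h2
    rw [holL, ← mul_assoc, Units.val_mul, Units.val_mul (step A x y), at0_mul, Flt.cst_mul,
      List.getLast_cons_cons]
    exact Flt.sub_trans h1 h2
/-- a primal plaquette -/
theorem plaq_pe {σ : Pt} (hσ : σ ∈ K) {k l : Fin 4} (hkl : k ≠ l) (hk : Odd (σ k)) (hl : Odd (σ l))
    (h0 : ∀ j, j ≠ k → j ≠ l → Even (σ j)) (h : InI b (curv A σ k l)) :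
    pe A (wv σ) (wv σ + 2 • ee k) * pe A (wv σ + 2 • ee k) (wv σ + 2 • ee k + 2 • ee l) *
      (pe A (wv σ) (wv σ + 2 • ee l) * pe A (wv σ + 2 • ee l) (wv σ + 2 • ee k + 2 • ee l))⁻¹ ∈
      UG b := by
  have hF : FlatAt A b σ := by
    have h1 : ∀ i, Odd (σ i) → i = k ∨ i = l := fun i hi => by
      by_contra h2
      rw [not_or] at h2
      exact Int.not_odd_iff_even.mpr (h0 i h2.1 h2.2) hi
    intro i j hi hj
    rcases h1 i hi with rfl | rfl <;> rcases h1 j hj with rfl | rfl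
    · rw [Flt.curv_self]
      exact InC.zero
    · exact h
    · rw [Flt.curv_swap]
      exact InC.neg h
    · rw [Flt.curv_self]
      exact InC.zero
  obtain ⟨g, -, -, h3⟩ := cell_flat ha hK hA hA' hσ hF
  have key : ∀ {k l : Fin 4}, k ≠ l → Odd (σ k) → Odd (σ l) → (∀ j, j ≠ k → j ≠ l → Even (σ j)) →
      InI b ((g (wv σ) * (pe A (wv σ) (wv σ + 2 • ee k) *
        pe A (wv σ + 2 • ee k) (wv σ + 2 • ee k + 2 • ee l)) : (MM O)ˣ) -
        (g (wv σ + 2 • ee k + 2 • ee l) : (MM O)ˣ) : MM O) := by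
    intro k l hkl hk hl h0
    have e1 : wv σ = face (face σ l false) k false := Flt.wv_two hkl hk hl h0
    have e2 : wv σ + 2 • ee k = face (face σ l false) k true := by rw [Flt.face_true_eq, e1]
    have e3 : wv σ + 2 • ee k = face (face σ k true) l false := by rw [e2, Flt.face_comm σ hkl]
    have e4 : wv σ + 2 • ee k + 2 • ee l = face (face σ k true) l true := by
      rw [Flt.face_true_eq _ l, e3]
    have h4 := Flt.pe_frame h3 (Flt.isFace_face hl false)
      (k := k) ((Flt.face_ne σ hkl false).symm ▸ hk)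
    have h5 := Flt.pe_frame h3 (Flt.isFace_face hk true)
      (k := l) ((Flt.face_ne σ hkl.symm true).symm ▸ hl)
    rw [← e1, ← e2] at h4
    rw [← e3, ← e4] at h5
    rw [← mul_assoc]
    exact Flt.sub_trans (Flt.sub_mul_right h4 _) h5
  have h4 := key hkl hk hl h0
  have h5 := key hkl.symm hl hk fun j h1 h2 => h0 j h2 h1
  rw [add_right_comm (wv σ) (2 • ee l)] at h5
  have h6 := Flt.sub_mul_left (Flt.sub_trans h4 (Flt.sub_symm h5)) (↑(g (wv σ))⁻¹ : MM O)
  rwa [← Units.val_mul, ← Units.val_mul, inv_mul_cancel_left, inv_mul_cancel_left,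
    inI_sub_iff] at h6

end Vale.Agent.P215Z
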