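import Vale.Agent.P215Z.Frm.Defs
import Vale.Agent.P215Z.Fm.Mat

set_option linter.unusedSectionVars false

noncomputable section
namespace Vale.Agent.P215Z
open MvPolynomial Classical
variable {O : Type} [CommRing O] [Algebra ℚ O]

/-! F1a: ideals, derivatives, integrals -/
section
variable {R : Type} [CommRing R] {b b' : Ideal R} {x y : M2 R}
theorem InC.add (hx : InC b x) (hy : InC b y) : InC b (x + y) :=
  fun a a' => b.add_mem (hx a a') (hy a a')
theorem InC.sub (hx : InC b x) (hy : InC b y) : InC b (x - y) :=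
  fun a a' => b.sub_mem (hx a a') (hy a a')
theorem InC.neg (hx : InC b x) : InC b (-x) :=
  fun a a' => b.neg_mem (hx a a')
theorem InC.zero : InC b (0 : M2 R) :=
  fun _ _ => b.zero_mem
theorem InC.mono (h : b ≤ b') (hx : InC b x) : InC b' x :=
  fun a a' => h (hx a a')
theorem InC.mul_left (hy : InC b y) (x : M2 R) : InC b (x * y) :=
  Fm.MI_mul_left x hy
theorem InC.mul_right (hx : InC b x) (y : M2 R) : InC b (x * y) :=
  Fm.MI_mul_right hx y
theorem InC.mul (hx : InC b x) (hy : InC b' y) : InC (b * b') (x * y) :=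
  Fm.MI_mul hx hy
theorem InC.smul (hx : InC b x) (r : R) : InC b (r • x) :=
  fun a a' => b.mul_mem_left r (hx a a')
theorem InC.zsmul (hx : InC b x) (r : ℤ) : InC b (r • x) :=
  fun a a' => zsmul_mem (hx a a') r
theorem InC.sum {ι : Type} (s : Finset ι) (f : ι → M2 R) (h : ∀ i ∈ s, InC b (f i)) :
    InC b (∑ i ∈ s, f i) :=
  (Fm.MI b).sum_mem h
theorem InC.trace (hx : InC b x) : Matrix.trace x ∈ b :=
  Fm.MI_trace hx
theorem inC_bot : InC ⊥ x ↔ x = 0 :=
  Fm.MI_bot
theorem InC.sup (hx : InC (b ⊔ b') x) : ∃ y z, InC b y ∧ InC b' z ∧ x = y + z := by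
  obtain ⟨y, hy, z, hz, h⟩ := Fm.MI_sup hx
  exact ⟨y, z, hy, hz, h⟩
theorem InC.inv_sub {g g' : (M2 R)ˣ} (h : InC b ((g : M2 R) - g')) :
    InC b ((↑g⁻¹ : M2 R) - ↑g'⁻¹) :=
  Fm.MI_inv_sub h
theorem InC.mul_sub {x' y' : M2 R} (hx : InC b (x - x')) (hy : InC b (y - y')) :
    InC b (x * y - x' * y') :=
  Fm.MI_mul_sub hx hy
theorem InC.Ad (hx : InC b x) (g : (M2 R)ˣ) : InC b (Ad g x) :=
  Fm.MI_conj hx _ _
/-- for `x` in a square zero ideal, `Ad g x` depends on `g` only modulo `b ⊔ i` -/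
theorem InC.Ad_sub {i : Ideal R} (hi : i * i = ⊥) (hx : InC i x) {g g' : (M2 R)ˣ}
    (h : InC (b ⊔ i) ((g : M2 R) - g')) : InC (i * b) (P215Z.Ad g x - P215Z.Ad g' x) := by
  have hle : i * (b ⊔ i) ≤ i * b := by rw [Ideal.mul_sup, hi, sup_bot_eq]
  have e : P215Z.Ad g x - P215Z.Ad g' x =
      ((↑g⁻¹ : M2 R) - ↑g'⁻¹) * x * g + ↑g'⁻¹ * (x * ((g : M2 R) - g')) := by
    unfold P215Z.Ad; noncomm_ring
  rw [e]
  exact (InC.mul_right (InC.mono hle (Fm.MI_mul' h.inv_sub hx)) _).add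
    (InC.mul_left ((hx.mul h).mono hle) _)
theorem Ad_mul (g g' : (M2 R)ˣ) (x : M2 R) : Ad (g * g') x = Ad g' (Ad g x) := by
  simp only [Ad, mul_inv_rev, Units.val_mul, mul_assoc]
theorem trace_Ad (g : (M2 R)ˣ) (x : M2 R) : Matrix.trace (Ad g x) = Matrix.trace x := by
  rw [Ad, Matrix.trace_mul_cycle, Units.mul_inv, one_mul]
end

theorem inI_iff (b : Ideal O) (x : MM O) : InI b x ↔ InC (b.map (C : O →+* RR O)) x := Iff.rfl
theorem inI_cst (b : Ideal O) (y : M2 O) : InI b (cst y) ↔ InC b y :=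
  Fm.MC_CM_iff
theorem InI.at0 {b : Ideal O} {x : MM O} (h : InI b x) : InC b (at0 x) :=
  Fm.MC_at0 h
theorem InI.mono {b b' : Ideal O} {x : MM O} (h : b ≤ b') (hx : InI b x) : InI b' x :=
  Fm.MC_mono h hx
theorem InI.mul {b b' : Ideal O} {x y : MM O} (hx : InI b x) (hy : InI b' y) :
    InI (b * b') (x * y) :=
  Fm.MC_mul hx hy
theorem InI.pd {b : Ideal O} {x : MM O} (h : InI b x) (k : Fin 4) : InI b (pd k x) :=
  Fm.MC_dM k h
theorem InI.evM {b : Ideal O} {x : MM O} (h : InI b x) (k : Fin 4) (c : Bool) :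
    InI b (evM k c x) :=
  Fm.MC_evM k c h
theorem inI_iff_mapM (b : Ideal O) (x : MM O) : InI b x ↔ mapM (Ideal.Quotient.mk b) x = 0 :=
  Fm.MC_iff_map
theorem InI.mapM {O' : Type} [CommRing O'] (χ : O →+* O') {b : Ideal O} {b' : Ideal O'}
    (h : b.map χ ≤ b') {x : MM O} (hx : InI b x) : InI b' (mapM χ x) :=
  Fm.MC_mono h (Fm.MC_mapM χ hx)
theorem itg_eq : (itg : RR O →ₗ[O] O) = Fm.II := by
  refine (basisMonomials (Fin 4) O).ext fun s => ?_
  rw [itg, Module.Basis.constr_basis, coe_basisMonomials, Fm.II_monomial, Algebra.smul_def, mul_one]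
  simp only [one_div]
theorem itg_mem {b : Ideal O} {f : RR O} (h : f ∈ b.map (C : O →+* RR O)) : itg f ∈ b :=
  Fm.lin_mem' _ h
theorem itg_C (r : O) : itg (C r : RR O) = r := by rw [itg_eq, Fm.II_C]
theorem itg_pderiv (k : Fin 4) (f : RR O) :
    itg (pderiv k f) = itg (ev k true f) - itg (ev k false f) := by
  rw [itg_eq, Fm.II_pderiv]; rfl
theorem itg_rename (π : Equiv.Perm (Fin 4)) (f : RR O) : itg (rename π f) = itg f := by
  rw [itg_eq, Fm.II_rename]
theorem itg_map {O' : Type} [CommRing O'] [Algebra ℚ O'] (χ : O →+* O') (f : RR O) :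
    itg (map χ f) = χ (itg f) := by rw [itg_eq, itg_eq, Fm.II_map]
theorem exists_antider (k : Fin 4) (c : Bool) : ∃ S : RR O →ₗ[O] RR O,
    (∀ f, pderiv k (S f) = f) ∧ (∀ f, ev k c (S f) = 0) ∧ (∀ f, S (pderiv k f) = f - ev k c f) ∧
    (∀ j, j ≠ k → ∀ f, pderiv j (S f) = S (pderiv j f)) ∧
    (∀ j c', j ≠ k → ∀ f, ev j c' (S f) = S (ev j c' f)) :=
  ⟨Fm.In k c, Fm.pderiv_In k c, Fm.ev_In k c, Fm.In_pderiv k c,
    fun _ h => Fm.pderiv_In_ne h c, fun _ c' h => Fm.ev_In_ne h c' c⟩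
theorem inI_of_pd {b : Ideal O} {x : MM O} (k : Fin 4) (c : Bool) (h1 : InI b (pd k x))
    (h2 : InI b (evM k c x)) : InI b x := by
  have e : x = Fm.InM k c (pd k x) + evM k c x := eq_add_of_sub_eq (Fm.InM_dM k c x).symm
  rw [e]
  exact InC.add (Fm.MC_InM k c h1) h2
theorem evM_of_pd {x : MM O} {k : Fin 4} (h : pd k x = 0) (c : Bool) : evM k c x = x :=
  Fm.evM_of_dM h c
theorem eq_cst_of_pd {x : MM O} (h : ∀ k, pd k x = 0) : x = cst (at0 x) :=
  Fm.eq_CM_of_dM h
theorem pd_add (k : Fin 4) (x y : MM O) : pd k (x + y) = pd k x + pd k y :=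
  map_add (Fm.dM k) x y
theorem pd_sub (k : Fin 4) (x y : MM O) : pd k (x - y) = pd k x - pd k y :=
  map_sub (Fm.dM k) x y
theorem pd_zero (k : Fin 4) : pd k (0 : MM O) = 0 := map_zero (Fm.dM k)
theorem pd_neg (k : Fin 4) (x : MM O) : pd k (-x) = -pd k x := map_neg (Fm.dM k) x
theorem pd_sum {ι : Type} (k : Fin 4) (s : Finset ι) (f : ι → MM O) :
    pd k (∑ i ∈ s, f i) = ∑ i ∈ s, pd k (f i) := map_sum (Fm.dM k) f s
theorem pd_smul (k : Fin 4) (f : RR O) (x : MM O) :
    pd k (f • x) = pderiv k f • x + f • pd k x := Fm.dM_smul k f x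
theorem pd_mul (k : Fin 4) (x y : MM O) : pd k (x * y) = pd k x * y + x * pd k y :=
  Fm.dM_mul k x y
theorem pd_one (k : Fin 4) : pd k (1 : MM O) = 0 :=
  Fm.dM_one k
theorem pd_cst (k : Fin 4) (y : M2 O) : pd k (cst y) = 0 :=
  Fm.dM_CM k y
theorem pd_comm (k j : Fin 4) (x : MM O) : pd k (pd j x) = pd j (pd k x) :=
  Fm.dM_comm k j x
theorem pd_inv (k : Fin 4) (g : (MM O)ˣ) :
    pd k (↑g⁻¹ : MM O) = -(↑g⁻¹ * pd k (g : MM O) * ↑g⁻¹) := by
  have h := pd_mul k (↑g⁻¹ : MM O) g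
  rw [Units.inv_mul, pd_one] at h
  have h2 := congrArg (· * (↑g⁻¹ : MM O)) h
  simp only [zero_mul, add_mul, Units.mul_inv_cancel_right] at h2
  exact eq_neg_of_add_eq_zero_left h2.symm
theorem pd_evM (k j : Fin 4) (c : Bool) (x : MM O) :
    pd j (evM k c x) = if j = k then 0 else evM k c (pd j x) := by
  split_ifs with h
  · subst h; exact Fm.dM_evM_self j c x
  · exact Fm.dM_evM_ne h c x
theorem evM_add (k : Fin 4) (c : Bool) (x y : MM O) : evM k c (x + y) = evM k c x + evM k c y :=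
  map_add (Fm.evM k c) x y
theorem evM_sub (k : Fin 4) (c : Bool) (x y : MM O) : evM k c (x - y) = evM k c x - evM k c y :=
  map_sub (Fm.evM k c) x y
theorem evM_mul (k : Fin 4) (c : Bool) (x y : MM O) : evM k c (x * y) = evM k c x * evM k c y :=
  map_mul (Fm.evM k c) x y
theorem evM_one (k : Fin 4) (c : Bool) : evM k c (1 : MM O) = 1 :=
  map_one (Fm.evM k c)
theorem evM_cst (k : Fin 4) (c : Bool) (y : M2 O) : evM k c (cst y) = cst y :=
  Fm.evM_CM k c y
theorem evM_zero (k : Fin 4) (c : Bool) : evM k c (0 : MM O) = 0 := map_zero (Fm.evM k c)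
theorem evM_neg (k : Fin 4) (c : Bool) (x : MM O) : evM k c (-x) = -evM k c x :=
  map_neg (Fm.evM k c) x
theorem evM_sum {ι : Type} (k : Fin 4) (c : Bool) (s : Finset ι) (f : ι → MM O) :
    evM k c (∑ i ∈ s, f i) = ∑ i ∈ s, evM k c (f i) := map_sum (Fm.evM k c) f s
theorem evM_smul (k : Fin 4) (c : Bool) (f : RR O) (x : MM O) :
    evM k c (f • x) = ev k c f • evM k c x := Fm.evM_smul k c f x
theorem evM_comm {j k : Fin 4} (h : j ≠ k) (c c' : Bool) (x : MM O) :
    evM j c (evM k c' x) = evM k c' (evM j c x) := Fm.evM_comm h c c' x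
theorem evM_inv {k : Fin 4} {c : Bool} {g g' : (MM O)ˣ} (h : (g' : MM O) = evM k c g) :
    (↑g'⁻¹ : MM O) = evM k c ↑g⁻¹ :=
  Units.inv_eq_of_mul_eq_one_right (by rw [h, ← evM_mul, Units.mul_inv, evM_one])
section
variable {O' : Type} [CommRing O'] (χ : O →+* O')
theorem mapM_zero : mapM χ (0 : MM O) = 0 := map_zero (Fm.mapM χ)
theorem mapM_one : mapM χ (1 : MM O) = 1 := map_one (Fm.mapM χ)
theorem mapM_add (x y : MM O) : mapM χ (x + y) = mapM χ x + mapM χ y := map_add (Fm.mapM χ) x y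
theorem mapM_sub (x y : MM O) : mapM χ (x - y) = mapM χ x - mapM χ y := map_sub (Fm.mapM χ) x y
theorem mapM_mul (x y : MM O) : mapM χ (x * y) = mapM χ x * mapM χ y := map_mul (Fm.mapM χ) x y
theorem mapM_pd (k : Fin 4) (x : MM O) : mapM χ (pd k x) = pd k (mapM χ x) := Fm.mapM_dM χ k x
theorem mapM_evM (k : Fin 4) (c : Bool) (x : MM O) : mapM χ (evM k c x) = evM k c (mapM χ x) :=
  Fm.mapM_evM χ k c x
end
theorem at0_evM (k : Fin 4) (x : MM O) : at0 (evM k false x) = at0 x :=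
  Fm.at0_evM k x
theorem at0_mul (x y : MM O) : at0 (x * y) = at0 x * at0 y :=
  map_mul Fm.at0 x y
theorem at0_cst (y : M2 O) : at0 (cst y) = y :=
  Fm.at0_CM y
theorem coe_at0U (g : (MM O)ˣ) : (at0U g : M2 O) = at0 (g : MM O) := rfl
theorem trace_pd (k : Fin 4) (x : MM O) : Matrix.trace (pd k x) = pderiv k (Matrix.trace x) :=
  Fm.trace_dM k x
theorem face_self (p : Pt) (k : Fin 4) (c : Bool) :
    face p k c k = if c then p k + 1 else p k - 1 := Function.update_self _ _ _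
theorem face_ne {p : Pt} {k j : Fin 4} {c : Bool} (h : j ≠ k) : face p k c j = p j :=
  Function.update_of_ne h _ _
theorem odd_face {p : Pt} {k j : Fin 4} {c : Bool} (hk : Odd (p k)) (hj : Odd (face p k c j)) :
    j ≠ k := by
  rintro rfl
  rw [face_self] at hj
  obtain ⟨m, hm⟩ := hk
  obtain ⟨n, hn⟩ := hj
  split_ifs at hn <;> omega
/-- a face is reached by passing to faces of codimension one -/
theorem IsFace.ind {P : Pt → Prop} {p τ : Pt} (h : IsFace τ p) (hp : P p)
    (hs : ∀ q k c, P q → Odd (q k) → IsFace τ (face q k c) → P (face q k c)) : P τ := by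
  have key : ∀ s : Finset (Fin 4), P fun j => if j ∈ s then τ j else p j := by
    intro s
    induction s using Finset.induction_on with
    | empty => simpa using hp
    | insert k s hk ih =>
      rcases h k with e | ⟨e1, e2⟩
      · convert ih using 2 with j
        by_cases hj : j = k
        · simp [hj, e]
        · simp [hj]
      · have e : (fun j => if j ∈ insert k s then τ j else p j) =
            face (fun j => if j ∈ s then τ j else p j) k (decide (τ k = p k + 1)) := by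
          funext j
          by_cases hj : j = k
          · subst hj
            rw [face_self]
            simp only [Finset.mem_insert_self, if_true, if_neg hk, decide_eq_true_eq]
            rw [abs_eq (by norm_num)] at e2
            split_ifs <;> omega
          · rw [face_ne hj]; simp [hj]
        rw [e]
        refine hs _ k _ ih (by simpa [hk] using e1) ?_
        rw [← e]
        intro j
        by_cases hj : j ∈ insert k s
        · simp [hj]
        · simpa [hj] using h j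
  simpa using key Finset.univ
theorem cx_Kof (X : Set Pt) : Cx (Kof X) := by
  rintro p ⟨q, hq, h⟩ k c ⟨m, hm⟩
  refine ⟨q, hq, fun j => ?_⟩
  by_cases hj : j = k
  · subst hj
    have := h j
    simp only [face, Function.update_self, cell, abs_le] at this ⊢
    split_ifs <;> omega
  · rw [face_ne hj]; exact h j
theorem Cx.isFace {K : Set Pt} (hK : Cx K) {p τ : Pt} (hp : p ∈ K) (h : IsFace τ p) : τ ∈ K :=
  IsFace.ind (P := fun q => q ∈ K) h hp fun q k c hq hk _ => hK q hq k c hk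
theorem Good1.add {K : Set Pt} {A B : F1 O} (hA : Good1 K A) (hB : Good1 K B) : Good1 K (A + B) :=
  ⟨fun p hp i j hi hj => by
    rw [Pi.add_apply, Pi.add_apply, pd_add, hA.indep p hp i j hi hj, hB.indep p hp i j hi hj,
      add_zero], fun p hp k c i hk hi h => by
    simp only [Pi.add_apply]
    rw [evM_add, hA.compat p hp k c i hk hi h, hB.compat p hp k c i hk hi h]⟩
theorem Good1.sub {K : Set Pt} {A B : F1 O} (hA : Good1 K A) (hB : Good1 K B) : Good1 K (A - B) :=
  ⟨fun p hp i j hi hj => by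
    rw [Pi.sub_apply, Pi.sub_apply, pd_sub, hA.indep p hp i j hi hj, hB.indep p hp i j hi hj,
      sub_zero], fun p hp k c i hk hi h => by
    simp only [Pi.sub_apply]
    rw [evM_sub, hA.compat p hp k c i hk hi h, hB.compat p hp k c i hk hi h]⟩
theorem Good2.sub {K : Set Pt} {A B : F2 O} (hA : Good2 K A) (hB : Good2 K B) : Good2 K (A - B) :=
  ⟨fun p hp i j hi hj => by
    simp only [Pi.sub_apply]
    rw [hA.anti p hp i j hi hj, hB.anti p hp i j hi hj]; abel,
  fun p hp i i' j hi hi' hj => by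
    simp only [Pi.sub_apply]
    rw [pd_sub, hA.indep p hp i i' j hi hi' hj, hB.indep p hp i i' j hi hi' hj, sub_zero],
  fun p hp k c i i' hk hi hi' h h' => by
    simp only [Pi.sub_apply]
    rw [evM_sub, hA.compat p hp k c i i' hk hi hi' h h', hB.compat p hp k c i i' hk hi hi' h h']⟩
theorem Good2.sum {K : Set Pt} {ι : Type} (s : Finset ι) (e : ι → F2 O) (h : ∀ i ∈ s, Good2 K (e i)) :
    Good2 K (∑ i ∈ s, e i) :=
  ⟨fun p hp i j hi hj => by
    simp only [Finset.sum_apply]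
    rw [← Finset.sum_neg_distrib]
    exact Finset.sum_congr rfl fun a ha => (h a ha).anti p hp i j hi hj,
  fun p hp i i' j hi hi' hj => by
    simp only [Finset.sum_apply]
    rw [pd_sum]
    exact Finset.sum_eq_zero fun a ha => (h a ha).indep p hp i i' j hi hi' hj,
  fun p hp k c i i' hk hi hi' h1 h2 => by
    simp only [Finset.sum_apply]
    rw [evM_sum]
    exact Finset.sum_congr rfl fun a ha => (h a ha).compat p hp k c i i' hk hi hi' h1 h2⟩
theorem Good1.curv {K : Set Pt} {A : F1 O} (hA : Good1 K A) : Good2 K (curv A) :=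
  ⟨fun p _ i j _ _ => by
    simp only [P215Z.curv, dd1, Ring.lie_def]; abel,
  fun p hp i i' j hi hi' hj => by
    simp only [P215Z.curv, dd1, Ring.lie_def, pd_add, pd_sub, pd_mul, pd_comm j,
      hA.indep p hp i j hi hj, hA.indep p hp i' j hi' hj, pd_zero, zero_mul, mul_zero, add_zero,
      sub_zero],
  fun p hp k c i i' hk hi hi' h1 h2 => by
    simp only [P215Z.curv, dd1, Ring.lie_def, evM_add, evM_sub, evM_mul,
      hA.compat p hp k c i hk hi h1, hA.compat p hp k c i' hk hi' h2, pd_evM, if_neg h1,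
      if_neg h2]⟩
theorem Good1.map1 {O' : Type} [CommRing O'] [Algebra ℚ O'] (χ : O →+* O') {K : Set Pt} {A : F1 O}
    (hA : Good1 K A) : Good1 K (map1 χ A) :=
  ⟨fun p hp i j hi hj => by
    rw [P215Z.map1, ← mapM_pd, hA.indep p hp i j hi hj, mapM_zero],
  fun p hp k c i hk hi h => by
    rw [P215Z.map1, P215Z.map1, ← mapM_evM, hA.compat p hp k c i hk hi h]⟩
theorem Good1.gauge {K : Set Pt} {A : F1 O} (hA : Good1 K A) {k : Pt → (MM O)ˣ}
    (hk : Good0 K fun p => (k p : MM O)) : Good1 K (gauge A k) :=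
  ⟨fun p hp i j hi hj => by
    have h := hk.indep p hp j hj
    simp only [P215Z.gauge, Ad, pd_add, pd_mul, pd_inv, pd_comm j, h, hA.indep p hp i j hi hj,
      pd_zero, zero_mul, mul_zero, add_zero, neg_zero],
  fun p hp j c i hj hi h => by
    have e := hk.compat p hp j c hj
    simp only [P215Z.gauge, Ad, evM_add, evM_mul, hA.compat p hp j c i hj hi h, e,
      evM_inv e, pd_evM, if_neg h]⟩
/-- membership on the top cells gives membership on all faces -/
theorem Good2.inI_face {K : Set Pt} (hK : Cx K) {e : F2 O} (he : Good2 K e) {b : Ideal O} {p τ : Pt}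
    (hp : p ∈ K) (hτ : IsFace τ p) (h : ∀ i j, Odd (p i) → Odd (p j) → InI b (e p i j))
    (i j : Fin 4) (hi : Odd (τ i)) (hj : Odd (τ j)) : InI b (e τ i j) := by
  refine (IsFace.ind (P := fun q => q ∈ K ∧ ∀ i j, Odd (q i) → Odd (q j) → InI b (e q i j)) hτ
    ⟨hp, h⟩ ?_).2 i j hi hj
  rintro q k c ⟨hq, h⟩ hk -
  refine ⟨hK q hq k c hk, fun i j hi hj => ?_⟩
  have h1 := odd_face hk hi
  have h2 := odd_face hk hj
  rw [face_ne h1] at hi
  rw [face_ne h2] at hj
  rw [he.compat q hq k c i j hk hi hj h1 h2]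
  exact (h i j hi hj).evM k c
theorem curv_map {O' : Type} [CommRing O'] [Algebra ℚ O'] (χ : O →+* O') (A : F1 O) (p : Pt) (i j : Fin 4) :
    curv (map1 χ A) p i j = mapM χ (curv A p i j) := by
  simp only [curv, dd1, map1, Ring.lie_def, mapM_add, mapM_sub, mapM_mul, mapM_pd]
theorem curv_gauge (A : F1 O) (k : Pt → (MM O)ˣ) (p : Pt) (i j : Fin 4) :
    curv (gauge A k) p i j = Ad (k p) (curv A p i j) := by
  have e : ∀ x : MM O, (k p : MM O) * ((↑(k p)⁻¹ : MM O) * x) = x := (k p).mul_inv_cancel_left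
  simp only [curv, dd1, gauge, Ad, Ring.lie_def, pd_add, pd_mul, pd_inv, pd_comm j i, mul_add,
    add_mul, mul_sub, sub_mul, neg_mul, mul_assoc, e]
  abel
theorem bianchi (A : F1 O) (p : Pt) (i j k : Fin 4) : dA2 A (curv A) p i j k = 0 := by
  simp only [dA2, cov, curv, dd1, Ring.lie_def, pd_add, pd_sub, pd_mul, pd_comm j i, pd_comm k i,
    pd_comm k j]
  noncomm_ring
theorem curv_sub (A η : F1 O) (p : Pt) (i j : Fin 4) : curv (A - η) p i j =
    curv A p i j - dd1 η p i j - ⁅A p i, η p j⁆ - ⁅η p i, A p j⁆ + ⁅η p i, η p j⁆ := by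
  simp only [curv, dd1, Ring.lie_def, Pi.sub_apply, pd_sub]
  noncomm_ring

end Vale.Agent.P215Z
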