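import Vale.Agent.P215Z.Lat

/-!
# P215: piecewise polynomial matrix valued forms on the doubled lattice
-/

noncomputable section

namespace Vale.Agent.P215Z

open MvPolynomial Classical

abbrev RR (O : Type) [CommRing O] : Type := MvPolynomial (Fin 4) O
abbrev MM (O : Type) [CommRing O] : Type := M2 (RR O)

/-! ### paths -/

section paths
variable {α G : Type} [Group G]

def holL (U : α → α → G) : List α → G
  | [] => 1
  | [_] => 1
  | a :: b :: l => U a b * holL U (b :: l)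

def holN (U : α → α → G) (x : ℕ → α) : ℕ → G
  | 0 => 1
  | n + 1 => holN U x n * U (x n) (x (n + 1))

end paths

/-- logarithm of a unipotent element -/
def lg {A : Type} [Ring A] [Algebra ℚ A] (x : A) : A :=
  ∑ᶠ j : ℕ, ((-1 : ℚ) ^ j / (j + 1)) • (x - 1) ^ (j + 1)

def Ad {A : Type} [Ring A] (g : Aˣ) (x : A) : A := (↑g⁻¹ : A) * x * g

/-! ### cells -/

def face (p : Pt) (k : Fin 4) (c : Bool) : Pt := Function.update p k (if c then p k + 1 else p k - 1)

/-- closed under faces -/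
def Cx (K : Set Pt) : Prop := ∀ p ∈ K, ∀ k c, Odd (p k) → face p k c ∈ K

/-- `τ` is a face of the closed cell `p` -/
def IsFace (τ p : Pt) : Prop := ∀ j, τ j = p j ∨ (Odd (p j) ∧ |τ j - p j| = 1)

/-- adjacent or equal points -/
def Adj (p p' : Pt) : Prop := IsStep (p' - p)

def wv (p : Pt) : Pt := fun j => if Odd (p j) then p j - 1 else p j
def upTo (p : Pt) (n : ℕ) : Pt := fun j => if j.val < n then p j else wv p j
def midp (v v' : Pt) : Pt := fun j => (v j + v' j) / 2

/-- primal edges of `K` -/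
def PAdj (K : Set Pt) (v v' : Pt) : Prop :=
  (∀ j, Even (v j)) ∧ midp v v' ∈ K ∧ ∃ k, v' = v + 2 • ee k ∨ v' = v - 2 • ee k

def eps4 (i j k l : Fin 4) : ℤ :=
  ((j : ℤ) - i) * ((k : ℤ) - i) * ((l : ℤ) - i) * ((k : ℤ) - j) * ((l : ℤ) - j) * ((l : ℤ) - k) / 12

section forms
variable {O : Type} [CommRing O] [Algebra ℚ O]

def ev (k : Fin 4) (c : Bool) : RR O →ₐ[O] RR O :=
  aeval fun j => if j = k then (if c then 1 else 0) else X j

/-- integral over the unit cube -/
def itg : RR O →ₗ[O] O :=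
  (basisMonomials (Fin 4) O).constr O fun s => algebraMap ℚ O (∏ j, 1 / ((s j : ℚ) + 1))

def pd (k : Fin 4) (x : MM O) : MM O := x.map (pderiv k)
def evM (k : Fin 4) (c : Bool) (x : MM O) : MM O := x.map (ev k c)
/-- value at `t = 0` -/
def at0 (x : MM O) : M2 O := x.map constantCoeff
def cst (y : M2 O) : MM O := y.map C
def at0U (g : (MM O)ˣ) : (M2 O)ˣ := Units.map (RingHom.mapMatrix (m := Fin 2) constantCoeff).toMonoidHom g

def InC (b : Ideal O) (y : M2 O) : Prop := ∀ a a', y a a' ∈ b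
def InI (b : Ideal O) (x : MM O) : Prop := ∀ a a', x a a' ∈ b.map (C : O →+* RR O)

abbrev F0 (O : Type) [CommRing O] : Type := Pt → MM O
abbrev F1 (O : Type) [CommRing O] : Type := Pt → Fin 4 → MM O
abbrev F2 (O : Type) [CommRing O] : Type := Pt → Fin 4 → Fin 4 → MM O

structure Good0 (K : Set Pt) (g : F0 O) : Prop where
  indep : ∀ p ∈ K, ∀ j, Even (p j) → pd j (g p) = 0
  compat : ∀ p ∈ K, ∀ k c, Odd (p k) → g (face p k c) = evM k c (g p)

structure Good1 (K : Set Pt) (A : F1 O) : Prop where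
  indep : ∀ p ∈ K, ∀ i j, Odd (p i) → Even (p j) → pd j (A p i) = 0
  compat : ∀ p ∈ K, ∀ k c i, Odd (p k) → Odd (p i) → i ≠ k → A (face p k c) i = evM k c (A p i)

structure Good2 (K : Set Pt) (e : F2 O) : Prop where
  anti : ∀ p ∈ K, ∀ i i', Odd (p i) → Odd (p i') → e p i i' = -e p i' i
  indep : ∀ p ∈ K, ∀ i i' j, Odd (p i) → Odd (p i') → Even (p j) → pd j (e p i i') = 0
  compat : ∀ p ∈ K, ∀ k c i i', Odd (p k) → Odd (p i) → Odd (p i') → i ≠ k → i' ≠ k →
    e (face p k c) i i' = evM k c (e p i i')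

def In0 (K : Set Pt) (b : Ideal O) (g : F0 O) : Prop := ∀ p ∈ K, InI b (g p)
def In1 (K : Set Pt) (b : Ideal O) (A : F1 O) : Prop := ∀ p ∈ K, ∀ i, Odd (p i) → InI b (A p i)
def In2 (K : Set Pt) (b : Ideal O) (e : F2 O) : Prop :=
  ∀ p ∈ K, ∀ i i', Odd (p i) → Odd (p i') → InI b (e p i i')

def dd0 (g : F0 O) : F1 O := fun p i => pd i (g p)
def dd1 (η : F1 O) : F2 O := fun p i j => pd i (η p j) - pd j (η p i)
def dd2 (e : F2 O) (p : Pt) (i j k : Fin 4) : MM O :=
  pd i (e p j k) + pd j (e p k i) + pd k (e p i j)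
def In3 (K : Set Pt) (b : Ideal O) (w : Pt → Fin 4 → Fin 4 → Fin 4 → MM O) : Prop :=
  ∀ p ∈ K, ∀ i j k, Odd (p i) → Odd (p j) → Odd (p k) → i ≠ j → j ≠ k → i ≠ k → InI b (w p i j k)

def curv (A : F1 O) : F2 O := fun p i j => dd1 A p i j + ⁅A p i, A p j⁆
/-- covariant derivative -/
def cov (A : F1 O) (p : Pt) (k : Fin 4) (x : MM O) : MM O := pd k x + ⁅A p k, x⁆
def dA2 (A : F1 O) (e : F2 O) (p : Pt) (i j k : Fin 4) : MM O :=
  cov A p i (e p j k) + cov A p j (e p k i) + cov A p k (e p i j)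
/-- gauge transformation -/
def gauge (A : F1 O) (k : Pt → (MM O)ˣ) : F1 O :=
  fun p i => Ad (k p) (A p i) + (↑(k p)⁻¹ : MM O) * pd i (k p : MM O)

/-- flat modulo `b` on the cell `p` -/
def FlatAt (A : F1 O) (b : Ideal O) (p : Pt) : Prop :=
  ∀ i j, Odd (p i) → Odd (p j) → InI b (curv A p i j)

def csd (A : F1 O) (τ : Pt) (l : Fin 4) : RR O :=
  ∑ i, ∑ j, ∑ k, eps4 l i j k •
    Matrix.trace (A τ i * pd j (A τ k) + (2 / 3 : ℚ) • (A τ i * A τ j * A τ k))

def pairD (e e' : F2 O) (p : Pt) : RR O :=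
  (1 / 4 : ℚ) • ∑ i, ∑ j, ∑ k, ∑ l, eps4 i j k l • Matrix.trace (e p i j * e' p k l)

/-- integral over the boundary of a finite set of cubes -/
def Bd (X : Finset Pt) (f : Pt → Fin 4 → O) : O :=
  ∑ q ∈ X, ∑ l, (f (face (cell q) l true) l - f (face (cell q) l false) l)

def CS (X : Finset Pt) (A : F1 O) : O := Bd X fun τ l => itg (csd A τ l)

/-- transport from the face `face p k c` into the cell `p` -/
def inn (A : F1 O) (p : Pt) (k : Fin 4) (c : Bool) : (MM O)ˣ :=
  if h : ∃ T : (MM O)ˣ, pd k (T : MM O) = T * A p k ∧ evM k c (T : MM O) = 1 then h.choose else 1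

def step (A : F1 O) (p p' : Pt) : (MM O)ˣ :=
  if h : ∃ x : Fin 4 × Bool, Odd (p' x.1) ∧ p = face p' x.1 x.2 then inn A p' h.choose.1 h.choose.2
  else if h : ∃ x : Fin 4 × Bool, Odd (p x.1) ∧ p' = face p x.1 x.2 then
    (inn A p h.choose.1 h.choose.2)⁻¹
  else 1

/-- transport along a primal edge -/
def pe (A : F1 O) (v v' : Pt) : (MM O)ˣ := step A v (midp v v') * step A (midp v v') v'

/-- transport from the lowest vertex of a cell to the point `t` of the cell -/
def Up (A : F1 O) (p : Pt) : (MM O)ˣ := holN (step A) (upTo p) 4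

def hat (τ σ : Pt) (m : Fin 4) : RR O :=
  if τ m = σ m + 1 then 1 - X m else if τ m = σ m - 1 then X m else 1

/-- a source: the two-cell `σ`, the transverse oriented plane, the value at the lowest vertex -/
structure Item (O : Type) where
  σ : Pt
  k : Fin 4
  l : Fin 4
  o : ℤ
  Y : M2 O

def Item.Valid (it : Item O) : Prop :=
  it.k ≠ it.l ∧ Even (it.σ it.k) ∧ Even (it.σ it.l) ∧ ∀ j, j ≠ it.k → j ≠ it.l → Odd (it.σ j)

def Item.Star (it : Item O) (τ : Pt) : Prop :=
  (∀ j, j ≠ it.k → j ≠ it.l → τ j = it.σ j) ∧ |τ it.k - it.σ it.k| ≤ 1 ∧ |τ it.l - it.σ it.l| ≤ 1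

def Item.xi (A : F1 O) (it : Item O) (τ : Pt) : MM O :=
  Ad (Up A it.σ * step A it.σ (Function.update it.σ it.k (τ it.k)) *
    step A (Function.update it.σ it.k (τ it.k)) τ) (cst it.Y)

def Item.J (A : F1 O) (it : Item O) : F2 O := fun τ i j =>
  if it.Star τ then
    (it.o * eps4 i j it.k it.l) • (hat τ it.σ it.k * hat τ it.σ it.l : RR O) • it.xi A τ
  else 0

/-- incidence of an item with a three-cell -/
def Item.inc (it : Item O) (θ : Pt) : ℤ :=
  if θ = it.σ + ee it.k then -it.o else if θ = it.σ - ee it.k then it.o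
  else if θ = it.σ + ee it.l then it.o else if θ = it.σ - ee it.l then -it.o else 0

def JJ {ι : Type} [Fintype ι] (A : F1 O) (it : ι → Item O) : F2 O := ∑ x, (it x).J A

/-- base change -/
def mapM {O' : Type} [CommRing O'] (χ : O →+* O') (x : MM O) : MM O' := x.map (map χ)
def map1 {O' : Type} [CommRing O'] (χ : O →+* O') (A : F1 O) : F1 O' := fun p i => mapM χ (A p i)

/-- pull back along `p ↦ p ∘ π + 2 u` -/
def affP (π : Equiv.Perm (Fin 4)) (u : Pt) (p : Pt) : Pt := fun j => p (π j) + 2 * u j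
def renM (π : Equiv.Perm (Fin 4)) (x : MM O) : MM O := x.map (rename π)
def pull (π : Equiv.Perm (Fin 4)) (u : Pt) (A : F1 O) : F1 O :=
  fun p i => renM π (A (affP π u p) (π.symm i))

end forms

end Vale.Agent.P215Z
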