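import Vale.Agent.P215Z.Frm.Step
import Vale.Agent.P215Z.Fm.CS2

set_option linter.unusedSectionVars false

noncomputable section
namespace Vale.Agent.P215Z
open MvPolynomial Classical
variable {O : Type} [CommRing O] [Algebra ℚ O]

/-! F4: Chern-Simons integrals -/

/-- orientation coefficient of the three-cell `τ` with normal `l` in the boundary of `X` -/
def oX (X : Finset Pt) (τ : Pt) (l : Fin 4) : ℤ :=
  (if ∃ q ∈ X, τ = face (cell q) l true then 1 else 0) -
    (if ∃ q ∈ X, τ = face (cell q) l false then 1 else 0)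

namespace F4

/-- the faces of the cubes of `X` on the side `c` -/
def side (X : Finset Pt) (c : Bool) : Finset (Pt × Fin 4) :=
  (X ×ˢ Finset.univ).image fun x : Pt × Fin 4 => (face (cell x.1) x.2 c, x.2)

theorem mem_side {X : Finset Pt} {c : Bool} {x : Pt × Fin 4} :
    x ∈ side X c ↔ ∃ q ∈ X, x.1 = face (cell q) x.2 c := by
  constructor
  · intro h
    obtain ⟨y, hy, rfl⟩ := Finset.mem_image.1 h
    exact ⟨y.1, (Finset.mem_product.1 hy).1, rfl⟩
  · rintro ⟨q, hq, h⟩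
    exact Finset.mem_image.2 ⟨(q, x.2), by simpa using hq, Prod.ext h.symm rfl⟩

theorem face_cell_inj {q q' : Pt} {l : Fin 4} {c : Bool}
    (h : face (cell q) l c = face (cell q') l c) : q = q' := by
  funext j
  have h1 := congrFun h j
  by_cases hj : j = l
  · subst hj
    simp only [face_self, cell] at h1
    split_ifs at h1 <;> omega
  · simp only [face_ne hj, cell] at h1
    omega

theorem sum_side (X : Finset Pt) (c : Bool) (f : Pt → Fin 4 → O) :
    ∑ x ∈ side X c, f x.1 x.2 = ∑ q ∈ X, ∑ l, f (face (cell q) l c) l := by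
  rw [side, Finset.sum_image, Finset.sum_product]
  rintro ⟨q, l⟩ - ⟨q', l'⟩ - h
  obtain ⟨h1, h2⟩ := Prod.mk.inj h
  obtain rfl : l = l' := h2
  exact Prod.ext (face_cell_inj h1) rfl

theorem oX_eq (X : Finset Pt) (x : Pt × Fin 4) : oX X x.1 x.2 =
    (if x ∈ side X true then 1 else 0) - if x ∈ side X false then 1 else 0 := by
  simp only [oX, mem_side]

theorem exists_face {X : Finset Pt} {τ : Pt} {l : Fin 4} (h : oX X τ l ≠ 0) :
    ∃ c, ∃ q ∈ X, τ = face (cell q) l c := by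
  by_contra hc
  refine h ?_
  rw [oX, if_neg fun h => hc ⟨true, h⟩, if_neg fun h => hc ⟨false, h⟩, sub_self]

theorem eps4_ne {l i j k : Fin 4} (h : eps4 l i j k ≠ 0) :
    i ≠ l ∧ j ≠ l ∧ k ≠ l ∧ i ≠ j ∧ i ≠ k ∧ j ≠ k := by
  revert l i j k
  decide

end F4

open F4

theorem Bd_eq_sum (X : Finset Pt) (f : Pt → Fin 4 → O) (S : Finset (Pt × Fin 4))
    (hS : ∀ τ l, oX X τ l ≠ 0 → (τ, l) ∈ S) : Bd X f = ∑ x ∈ S, oX X x.1 x.2 • f x.1 x.2 := by
  have key : ∀ c, side X c ⊆ S ∪ (side X true ∪ side X false) →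
      ∑ x ∈ S ∪ (side X true ∪ side X false), (if x ∈ side X c then (1 : ℤ) else 0) • f x.1 x.2 =
        ∑ q ∈ X, ∑ l, f (face (cell q) l c) l := fun c hc => by
    rw [← sum_side, ← Finset.sum_subset hc fun x _ hx => by rw [if_neg hx, zero_smul]]
    exact Finset.sum_congr rfl fun x hx => by rw [if_pos hx, one_smul]
  rw [Finset.sum_subset (s₂ := S ∪ (side X true ∪ side X false)) Finset.subset_union_left
    fun x _ hx => by rw [not_not.1 fun h => hx (hS x.1 x.2 h), zero_smul]]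
  simp only [oX_eq, sub_smul, Finset.sum_sub_distrib, Bd]
  rw [key true (Finset.subset_union_left.trans Finset.subset_union_right),
    key false (Finset.subset_union_right.trans Finset.subset_union_right)]
theorem exists_bd_finset (X : Finset Pt) :
    ∃ S : Finset (Pt × Fin 4), ∀ τ l, (τ, l) ∈ S ↔ oX X τ l ≠ 0 := by
  refine ⟨(side X true ∪ side X false).filter fun x => oX X x.1 x.2 ≠ 0, fun τ l =>
    ⟨fun h => (Finset.mem_filter.1 h).2, fun h => Finset.mem_filter.2 ⟨?_, h⟩⟩⟩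
  obtain ⟨c, hc⟩ := exists_face h
  cases c
  · exact Finset.mem_union_right _ (mem_side.2 hc)
  · exact Finset.mem_union_left _ (mem_side.2 hc)
theorem Bd_sub_mem (X : Finset Pt) (f f' : Pt → Fin 4 → O) (b : Ideal O)
    (h : ∀ τ l, oX X τ l ≠ 0 → f τ l - f' τ l ∈ b) : Bd X f - Bd X f' ∈ b := by
  obtain ⟨S, hS⟩ := exists_bd_finset X
  rw [Bd_eq_sum X f S fun τ l => (hS τ l).2, Bd_eq_sum X f' S fun τ l => (hS τ l).2,
    ← Finset.sum_sub_distrib]
  refine Ideal.sum_mem _ fun x hx => ?_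
  rw [← smul_sub]
  exact zsmul_mem (h _ _ ((hS x.1 x.2).1 hx)) _
theorem oX_shape {X : Finset Pt} {τ : Pt} {l : Fin 4} (h : oX X τ l ≠ 0) :
    Even (τ l) ∧ ∀ j, j ≠ l → Odd (τ j) := by
  obtain ⟨c, q, -, rfl⟩ := exists_face h
  refine ⟨?_, fun j hj => by rw [face_ne hj]; exact odd_two_mul_add_one _⟩
  rw [face_self, Int.even_iff]
  simp only [cell]
  split_ifs <;> omega
theorem csd_congr {A A' : F1 O} {τ : Pt} {l : Fin 4} (h : ∀ i, i ≠ l → A τ i = A' τ i) :
    csd A τ l = csd A' τ l := by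
  refine Finset.sum_congr rfl fun i _ => Finset.sum_congr rfl fun j _ =>
    Finset.sum_congr rfl fun k _ => ?_
  by_cases e : eps4 l i j k = 0
  · rw [e, zero_smul, zero_smul]
  · obtain ⟨h1, h2, h3, -⟩ := eps4_ne e
    rw [h i h1, h j h2, h k h3]
theorem CS_map {O' : Type} [CommRing O'] [Algebra ℚ O'] (χ : O →+* O') (X : Finset Pt) (A : F1 O) :
    CS X (map1 χ A) = χ (CS X A) := Fm.Br.CS_map χ X A
theorem stokes4 (X : Finset Pt) {A : F1 O} (hA : Good1 (Kof X) A) :
    CS X A = ∑ q ∈ X, itg (pairD (curv A) (curv A) (cell q)) :=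
  Fm.Br.stokes4 (cx_Kof _) (fun q hq => ⟨q, hq, fun j => by simp⟩) hA
theorem F4.oX_ne {X : Finset Pt} {τ : Pt} {l : Fin 4} (h : Fm.OnBd3 (X.image cell) τ l) :
    oX X τ l ≠ 0 := by
  rw [Fm.Br.onBd3_iff] at h
  unfold oX
  split_ifs with h1 h2 h2
  · exact absurd (iff_of_true h1 h2) h
  · decide
  · decide
  · exact absurd (iff_of_false h1 h2) h

variable (X : Finset Pt) {K : Set Pt} (hK : Cx K) (hX : ∀ τ l, oX X τ l ≠ 0 → τ ∈ K)
include hK hX

theorem cs_var {A δ : F1 O} (hA : Good1 K A) (hδ : Good1 K δ) {b : Ideal O} (h : In1 K b δ) :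
    CS X (A + δ) - CS X A - Bd X (fun τ l => itg (∑ i, ∑ j, ∑ k,
      eps4 l i j k • Matrix.trace (δ τ i * curv A τ j k))) ∈ b ^ 2 :=
  Fm.Br.cs_var hK (fun τ l h => hX τ l (oX_ne h)) hA hδ h

theorem cs_gauge {a : Ideal O} (ha : IsNilpotent a) {A : F1 O} (hA : Good1 K A)
    {k : Pt → (MM O)ˣ} (hk : Good0 K fun p => (k p : MM O)) (hk' : ∀ p ∈ K, k p ∈ UG a) :
    CS X (gauge A k) = CS X A :=
  Fm.Br.cs_gauge hK (fun τ l h => hX τ l (oX_ne h)) ha hA hk hk'

end Vale.Agent.P215Z
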