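import Vale.Agent.P215Z.Frm.Defs

/-!
# P215: unit cochains, scaled complexes, pairs, walls
-/

noncomputable section

namespace Vale.Agent.P215Z

open MvPolynomial Classical

/-- the unit cell which contains a fine cell -/
def unitP (n : Fin 4 → ℕ) (p : Pt) : Pt :=
  fun j => 2 * (p j / (2 * n j)) + if (2 * n j : ℤ) ∣ p j then 0 else 1

def sc (n : Fin 4 → ℕ) (K : Set Pt) : Set Pt := unitP n ⁻¹' K

def dimP (u : Pt) : ℕ := (Finset.univ.filter fun j => Odd (u j)).card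

def sgnC (u : Pt) (j : Fin 4) : ℤ := (-1) ^ (Finset.univ.filter fun i => i < j ∧ Odd (u i)).card

/-- coboundary of unit cochains -/
def dC {M : Type} [AddCommGroup M] (c : Pt → M) (u : Pt) : M :=
  ∑ j, if Odd (u j) then sgnC u j • (c (face u j true) - c (face u j false)) else 0

def UH (d : ℕ) (K : Set Pt) : Prop :=
  ∀ (M : Type) [AddCommGroup M] (c : Pt → M), (∀ u ∈ K, dimP u = d + 1 → dC c u = 0) →
    ∃ β : Pt → M, ∀ u ∈ K, dimP u = d → c u = dC β u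

/-- cochains pulled back along the projection which forgets the last coordinate -/
def InvC {M : Type} [Zero M] (c : Pt → M) : Prop :=
  ∀ u, c u = if Odd (u 3) then 0 else c (Function.update u 3 0)

def UHpair (K1 K2 K0 : Set Pt) : Prop :=
  ∀ (M : Type) [AddCommGroup M] (c c' : Pt → M), InvC c' →
    (∀ u ∈ K1, dimP u = 3 → dC c u = 0) → (∀ u ∈ K2, dimP u = 3 → dC c' u = 0) →
    (∀ u ∈ K0, dimP u = 2 → c u = c' u) →
    ∃ β β' : Pt → M, InvC β' ∧ (∀ u ∈ K1, dimP u = 2 → c u = dC β u) ∧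
      (∀ u ∈ K2, dimP u = 2 → c' u = dC β' u) ∧ ∀ u ∈ K0, dimP u = 1 → β u = β' u

/-- unit level complexes; the last direction is a single interval -/
def Uc1 : Set Pt := {q | q 3 = 0 ∧ q ∈ Uc 1}
def KR1 : Set Pt := Kof {q | q 3 = 0 ∧ q ∈ Rc 1}
def KB1 : Set Pt := Kof {q | q 3 = 0 ∧ q ∈ Bc 1}
def KS1 : Set Pt := KR1 ∩ KB1 ∩ Kof Uc1ᶜ

/-- the boundary of the standard cube of side `n` -/
def KdQ (n : ℕ) : Set Pt := {p | (∀ j, 0 ≤ p j ∧ p j ≤ 2 * n) ∧ ∃ l, p l = 0 ∨ p l = 2 * n}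
def Q0 (n : ℕ) : Finset Pt := Fintype.piFinset fun _ => Finset.Ico (0 : ℤ) n
def Is3 (n : ℕ) (τ : Pt) (l : Fin 4) : Prop :=
  (τ l = 0 ∨ τ l = 2 * n) ∧ ∀ j, j ≠ l → Odd (τ j) ∧ 0 ≤ τ j ∧ τ j ≤ 2 * n
def oQ (τ : Pt) (l : Fin 4) : ℤ := if τ l = 0 then -1 else 1

variable {O : Type} [CommRing O] [Algebra ℚ O]

def Inv1 (A : F1 O) : Prop := ∀ p i, A p i = if i = 3 then 0 else A (Function.update p 3 0) i
def Inv2 (e : F2 O) : Prop :=
  ∀ p i j, e p i j = if i = 3 ∨ j = 3 then 0 else e (Function.update p 3 0) i j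
def Agree1 (K : Set Pt) (A B : F1 O) : Prop := ∀ p ∈ K, ∀ i, Odd (p i) → A p i = B p i
def Agree2 (K : Set Pt) (e e' : F2 O) : Prop :=
  ∀ p ∈ K, ∀ i j, Odd (p i) → Odd (p j) → e p i j = e' p i j

/-- closed curves in the boundary of the standard cube, with whiskers -/
structure CurveSys (C : Type) where
  per : C → ℕ
  pt : C → ℕ → Pt
  prim : C → List Pt

structure CurveSys.Valid {C G : Type} (S : CurveSys C) (n : ℕ) (mk : C → G) : Prop where
  per_pos : ∀ c, 0 < S.per c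
  closed : ∀ c, S.pt c (S.per c) = S.pt c 0
  base : ∀ c, ∃ l, Is3 n (S.pt c 0) l
  prim_head : ∀ c, (S.prim c).head? = some 0
  prim_last : ∀ c, (S.prim c).getLast? = some (wv (S.pt c 0))
  prim_chain : ∀ c, (S.prim c).IsChain (PAdj (KdQ n))
  stp : ∀ c, ∀ k < S.per c,
    (S.pt c (k + 1) = S.pt c k ∧ ∃ l, Is3 n (S.pt c k) l) ∨
    (∃ l d s, Is3 n (S.pt c k) l ∧ d ≠ l ∧ S.pt c (k + 1) = face (S.pt c k) d s) ∨
    (∃ l d s, Is3 n (S.pt c (k + 1)) l ∧ d ≠ l ∧ S.pt c k = face (S.pt c (k + 1)) d s)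
  thru : ∀ c k, k + 1 < S.per c → (¬ ∃ l, Is3 n (S.pt c (k + 1)) l) → S.pt c k ≠ S.pt c (k + 2)
  sep : ∀ c c' k k', k < S.per c → k' < S.per c' → S.pt c k = S.pt c' k' → mk c = mk c'

namespace CurveSys
variable {C : Type} [Fintype C] (S : CurveSys C)

def whis (A : F1 O) (c : C) : (MM O)ˣ := holL (pe A) (S.prim c) * Up A (S.pt c 0)
def G (A : F1 O) (c : C) (k : ℕ) : (MM O)ˣ := S.whis A c * holN (step A) (S.pt c) k
def H (A : F1 O) (c : C) : (MM O)ˣ := S.G A c (S.per c) * (S.whis A c)⁻¹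
def xi (A : F1 O) (X : C → M2 O) (c : C) (k : ℕ) : MM O := Ad (S.G A c k) (cst (X c))

/-- the current of the curves on the three-cell `τ` with normal `l` -/
def Jw (A : F1 O) (X : C → M2 O) (τ : Pt) (l i j : Fin 4) : MM O :=
  ∑ c, ∑ k ∈ Finset.range (S.per c), ∑ d,
    (oQ τ l * (S.pt c (k + 1) d - S.pt c k d) * eps4 l d i j) •
      ((if S.pt c k = τ then (hat τ (S.pt c (k + 1)) d : RR O) • S.xi A X c k else 0) +
       (if S.pt c (k + 1) = τ then (hat τ (S.pt c k) d : RR O) • S.xi A X c (k + 1) else 0))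

def Crit (n : ℕ) (A : F1 O) (X : C → M2 O) (b : Ideal O) : Prop :=
  (∀ τ l, Is3 n τ l → ∀ i j, i ≠ l → j ≠ l → InI b (curv A τ i j - S.Jw A X τ l i j)) ∧
    ∀ c, InC b ⁅X c, (at0U (S.H A c) : M2 O)⁆

def SS (n : ℕ) (A : F1 O) (X : C → M2 O) : O :=
  CS (Q0 n) A - 2 * ∑ c, itg (Matrix.trace (cst (X c) * lg (S.H A c : MM O)))

end CurveSys

/-- a nilpotent ideal and square zero ideals -/
structure Marked (O : Type) [CommRing O] (G : Type) where
  a : Ideal O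
  ii : G → Ideal O
  nil : IsNilpotent a
  sq : ∀ g, ii g * ii g = ⊥
  le : ∀ g, ii g ≤ a

def evX {C : Type} (X : C → M2 O) : MvPolynomial (C × I2) ℚ →ₐ[ℚ] O :=
  aeval fun v => X v.1 v.2.1 v.2.2

end Vale.Agent.P215Z
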