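import Vale.Agent.P215Z.Frm.FirstA

noncomputable section
namespace Vale.Agent.P215Z
open MvPolynomial Classical
variable {O : Type} [CommRing O] [Algebra ℚ O]

/-! F3: first order formulas -/

def sB (c : Bool) : ℤ := if c then 1 else -1

variable {a : Ideal O} (ha : IsNilpotent a) {K : Set Pt} (hK : Cx K) {A : F1 O} (hA : Good1 K A)
  (hA' : In1 K a A)
include ha hK hA hA'

omit hK in
/-- the two transports from a corner of a square into the square -/
theorem F3.two {p : Pt} (hp : p ∈ K) {k l : Fin 4} (hk : Odd (p k)) (hl : Odd (p l)) (hkl : k ≠ l)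
    (c c' : Bool) {Ga Gb : (MM O)ˣ} (h1 : Ga = inn A (face p k c) l c' * inn A p k c)
    (h2 : Gb = inn A (face p l c') k c * inn A p l c') :
    pd k (Ga : MM O) = Ga * A p k ∧ pd l (Gb : MM O) = Gb * A p l ∧
      evM k c (F3.BB l (A p l) Ga) = 0 ∧ evM l c' (Ga : MM O) = evM l c' (Gb : MM O) ∧
      (Ga : MM O) = evM k c (inn A p l c' : MM O) * inn A p k c ∧
      (Gb : MM O) = evM l c' (inn A p k c : MM O) * inn A p l c' := by
  have e1 := inn_face ha hA hA' hp hk hl hkl c c'
  have e2 := inn_face ha hA hA' hp hl hk hkl.symm c' c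
  obtain ⟨s1, s2⟩ := inn_spec ha c (hA' p hp k hk)
  obtain ⟨s3, s4⟩ := inn_spec ha c' (hA' p hp l hl)
  have ga : (Ga : MM O) = evM k c (inn A p l c' : MM O) * inn A p k c := by
    rw [h1, Units.val_mul, e2]
  have gb : (Gb : MM O) = evM l c' (inn A p k c : MM O) * inn A p l c' := by
    rw [h2, Units.val_mul, e1]
  have z1 : pd k (evM k c (inn A p l c' : MM O)) = 0 := by rw [pd_evM, if_pos rfl]
  have z2 : pd l (evM l c' (inn A p k c : MM O)) = 0 := by rw [pd_evM, if_pos rfl]
  have ea : evM k c (Ga : MM O) = evM k c (inn A p l c' : MM O) := by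
    rw [ga, evM_mul, s2, mul_one, evM_of_pd z1]
  refine ⟨?_, ?_, ?_, ?_, ga, gb⟩
  · rw [ga, pd_mul, z1, zero_mul, zero_add, s1, mul_assoc]
  · rw [gb, pd_mul, z2, zero_mul, zero_add, s3, mul_assoc]
  · have e3 : evM k c (pd l (Ga : MM O)) = evM k c ((Ga : MM O) * A p l) := by
      have := pd_evM k l c (Ga : MM O)
      rw [if_neg hkl.symm] at this
      rw [← this, evM_mul, ea, pd_evM, if_neg hkl.symm, s3, evM_mul]
    rw [F3.BB, evM_sub, evM_mul, e3, ← evM_mul, Units.inv_mul_cancel_left, sub_self]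
  · rw [ga, gb, evM_mul, evM_mul, s4, evM_comm hkl.symm, s4, evM_one, one_mul, mul_one,
      evM_of_pd z2]

theorem plaq_first {M ii : Ideal O} (hii : ii * ii = ⊥) {p : Pt} (hp : p ∈ K) {k l : Fin 4}
    (hk : Odd (p k)) (hl : Odd (p l)) (hkl : k ≠ l) (c c' : Bool) {ξ : MM O} (hξ : InI ii ξ)
    (h1 : InI M (cov A p k ξ)) (h2 : InI M (cov A p l ξ)) (hF : InI (M ⊔ ii) (curv A p k l)) :
    itg (Matrix.trace (ξ * ((Lam4 A p k c l c' : MM O) - 1))) -
      (sB c * sB c') • itg (hat p (face (face p k c) l c') k * hat p (face (face p k c) l c') l *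
        Matrix.trace (ξ * curv A p k l)) ∈ M ^ 2 := by
  have _ := hK
  obtain ⟨g1, g2, g3, g4, -, -⟩ := F3.two ha hA hA' hp hk hl hkl c c' rfl rfl
  have eL : Lam4 A p k c l c' = (inn A (face p k c) l c' * inn A p k c)⁻¹ *
      (inn A (face p l c') k c * inn A p l c') := by
    have o1 : Odd (face p k c l) := by rwa [face_ne hkl.symm]
    have o2 : Odd (face p l c' k) := by rwa [face_ne hkl]
    rw [Lam4, step_out A c hk, step_out A c' o1, F3.face_comm p hkl, step_in A c o2,
      step_in A c' hl, mul_inv_rev, mul_assoc]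
  rw [eL, Units.val_mul, F3.hat_face p _ k c (by rw [face_ne hkl, face_self]),
    F3.hat_face p _ l c' (by rw [face_self, face_ne hkl.symm])]
  refine F3.first_core hii hkl g1 g2 g3 ?_ hξ h1 h2 hF
  rw [evM_mul, ← g4, ← evM_mul, Units.inv_mul, evM_one]

omit hK hA hA' in
/-- a primal edge transport as a boundary value -/
theorem F3.pe_eq {q : Pt} {k : Fin 4} (hk : Odd (q k)) (h : InI a (A q k)) {v v' : Pt}
    (h1 : v = face q k false) (h2 : v' = face q k true) :
    (pe A v v' : MM O) = evM k true (inn A q k false : MM O) := by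
  have hm : midp v v' = q := by
    funext j
    by_cases hj : j = k
    · subst hj
      simp only [midp, h1, h2, face_self, Bool.false_eq_true, if_false, if_true]
      omega
    · simp only [midp, h1, h2, face_ne hj]
      omega
  obtain ⟨s1, -⟩ := inn_spec ha false h
  obtain ⟨s3, s4⟩ := inn_spec ha true h
  rw [pe, hm, h1, h2, step_in A false hk, step_out A true hk, Units.val_mul]
  have z : pd k ((inn A q k false : MM O) * (↑(inn A q k true)⁻¹ : MM O)) = 0 := by
    rw [pd_mul, pd_inv, s1, s3]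
    simp only [mul_neg, mul_assoc, Units.inv_mul_cancel_left, add_neg_cancel]
  have z2 : evM k true (↑(inn A q k true)⁻¹ : MM O) = 1 := by
    have := evM_mul k true (inn A q k true : MM O) (↑(inn A q k true)⁻¹ : MM O)
    rw [Units.mul_inv, evM_one, s4, one_mul] at this
    exact this.symm
  rw [← evM_of_pd z true, evM_mul, z2, mul_one]

theorem plaq_alpha {M ii : Ideal O} (hia : ii ≤ a) (hii : ii * ii = ⊥) {σ : Pt} (hσ : σ ∈ K)
    {k l : Fin 4} (hkl : k ≠ l) (hk : Odd (σ k)) (hl : Odd (σ l))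
    (h0 : ∀ j, j ≠ k → j ≠ l → Even (σ j)) {y : M2 O} (hy : InC ii y)
    (h : InI (M ⊔ a * ii) (curv A σ k l - cst y)) :
    InI (M ⊔ a * ii) (((pe A (wv σ) (wv σ + 2 • ee k) *
      pe A (wv σ + 2 • ee k) (wv σ + 2 • ee k + 2 • ee l) *
      (pe A (wv σ) (wv σ + 2 • ee l) * pe A (wv σ + 2 • ee l) (wv σ + 2 • ee k + 2 • ee l))⁻¹ :
        (MM O)ˣ) : MM O) - 1 - cst y) := by
  have _ := hia
  have _ := hii
  obtain ⟨g1, g2, g3, g4, g5, g6⟩ := F3.two ha hA hA' hσ hk hl hkl false false rfl rfl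
  have ok : ∀ c, Odd (face σ l c k) := fun c => by rwa [face_ne hkl]
  have ol : ∀ c, Odd (face σ k c l) := fun c => by rwa [face_ne hkl.symm]
  have mk : ∀ c, InI a (A (face σ l c) k) := fun c => hA' _ (hK σ hσ l c hl) k (ok c)
  have ml : ∀ c, InI a (A (face σ k c) l) := fun c => hA' _ (hK σ hσ k c hk) l (ol c)
  have cor : ∀ c c' : Bool, wv σ + (if c then 2 • ee k else 0) + (if c' then 2 • ee l else 0) =
      face (face σ k c) l c' := by
    intro c c'
    funext j
    by_cases e1 : j = k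
    · subst e1
      rw [face_ne hkl, face_self]
      cases c <;> cases c' <;> simp [wv, ee, hk, hkl]
      all_goals omega
    · by_cases e2 : j = l
      · subst e2
        rw [face_self, face_ne e1]
        cases c <;> cases c' <;> simp [wv, ee, hl, e1]
        all_goals omega
      · rw [face_ne e2, face_ne e1]
        have := Int.not_odd_iff_even.2 (h0 j e1 e2)
        cases c <;> cases c' <;> simp [wv, ee, this, e1, e2]
  have c00 : wv σ = face (face σ k false) l false := by simpa using cor false false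
  have c10 : wv σ + 2 • ee k = face (face σ k true) l false := by simpa using cor true false
  have c01 : wv σ + 2 • ee l = face (face σ k false) l true := by simpa using cor false true
  have c11 : wv σ + 2 • ee k + 2 • ee l = face (face σ k true) l true := by
    simpa using cor true true
  have p1 := F3.pe_eq ha (ok false) (mk false) (c00.trans (F3.face_comm σ hkl _ _))
    (c10.trans (F3.face_comm σ hkl _ _))
  have p2 := F3.pe_eq ha (ol true) (ml true) c10 c11
  have p3 := F3.pe_eq ha (ol false) (ml false) c00 c01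
  have p4 := F3.pe_eq ha (ok true) (mk true) (c01.trans (F3.face_comm σ hkl _ _))
    (c11.trans (F3.face_comm σ hkl _ _))
  rw [← inn_face ha hA hA' hσ hk hl hkl] at p1 p4
  rw [← inn_face ha hA hA' hσ hl hk hkl.symm] at p2 p3
  have ua := (UG a).mul_mem (inn_mem ha false (ml false)) (inn_mem ha false (hA' σ hσ k hk))
  have ub := (UG a).mul_mem (inn_mem ha false (mk false)) (inn_mem ha false (hA' σ hσ l hl))
  have key := F3.alpha_core hkl g1 g2 g3 (by
    rw [evM_mul, ← g4, ← evM_mul, Units.mul_inv, evM_one]) ua ub hy h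
  have z1 : ∀ x : MM O, evM k true (evM k false x) = evM k false x := fun x =>
    evM_of_pd (by rw [pd_evM, if_pos rfl]) _
  have z2 : ∀ x : MM O, evM l true (evM l false x) = evM l false x := fun x =>
    evM_of_pd (by rw [pd_evM, if_pos rfl]) _
  generalize inn A (face σ k false) l false * inn A σ k false = Ga at *
  generalize inn A (face σ l false) k false * inn A σ l false = Gb at *
  have q1 : ((pe A (wv σ) (wv σ + 2 • ee k) *
      pe A (wv σ + 2 • ee k) (wv σ + 2 • ee k + 2 • ee l) : (MM O)ˣ) : MM O) =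
      evM k true (evM l true (Gb : MM O)) := by
    rw [Units.val_mul, p1, p2, g6, evM_mul, evM_mul, z2, evM_comm hkl.symm]
  have q2 : ((pe A (wv σ) (wv σ + 2 • ee l) *
      pe A (wv σ + 2 • ee l) (wv σ + 2 • ee k + 2 • ee l) : (MM O)ˣ) : MM O) =
      evM k true (evM l true (Ga : MM O)) := by
    rw [Units.val_mul, p3, p4, g5, evM_mul, evM_mul, evM_comm hkl true true (evM k false _), z1]
  have q3 : (((pe A (wv σ) (wv σ + 2 • ee l) *
      pe A (wv σ + 2 • ee l) (wv σ + 2 • ee k + 2 • ee l))⁻¹ : (MM O)ˣ) : MM O) =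
      evM k true (evM l true (↑Ga⁻¹ : MM O)) :=
    Units.inv_eq_of_mul_eq_one_right (by
      rw [q2, ← evM_mul, ← evM_mul, Units.mul_inv, evM_one, evM_one])
  rw [Units.val_mul, q1, q3, ← evM_mul, ← evM_mul]
  exact key

omit hK hA hA' in
/-- variation of a transport -/
theorem inn_var {b : Ideal O} {δ : F1 O} {p : Pt} {k : Fin 4} (c : Bool) (h1 : InI a (A p k))
    (h2 : InI a (δ p k)) (h3 : InI b (δ p k)) {ξ : MM O} (hξ : InI b (cov A p k ξ)) :
    ∃ μ : MM O, InI b μ ∧ (inn (A + δ) p k c : MM O) = inn A p k c * (1 + μ) ∧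
      itg (Matrix.trace (ξ * μ)) +
        sB c • itg (hat p (face p k c) k * Matrix.trace (ξ * δ p k)) ∈ b ^ 2 := by
  obtain ⟨s1, s2⟩ := inn_spec ha c h1
  obtain ⟨s3, s4⟩ := inn_spec ha (A := A + δ) c (InC.add h1 h2)
  generalize inn (A + δ) p k c = T' at *
  generalize inn A p k c = T at *
  obtain ⟨μ, hμ⟩ : ∃ μ : MM O, μ = (↑T⁻¹ : MM O) * (T' : MM O) - 1 := ⟨_, rfl⟩
  have z0 : evM k c μ = 0 := by
    have := evM_mul k c (T : MM O) (↑T⁻¹ : MM O)
    rw [Units.mul_inv, evM_one, s2, one_mul] at this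
    rw [hμ, evM_sub, evM_mul, ← this, s4, evM_one, one_mul, sub_self]
  have cμ : F3.cv k (A p k) μ = δ p k + μ * δ p k := by
    rw [hμ, F3.cv_sub_one, F3.cv, pd_mul, pd_inv, s1, s3]
    simp only [Pi.add_apply, Ring.lie_def, mul_add, sub_mul, neg_mul, mul_assoc,
      Units.inv_mul_cancel_left, one_mul]
    abel
  have mμ : InI b μ := by
    refine F3.inI_of_cv s1 c ?_ ?_
    · rw [cμ]; exact InC.add h3 (InC.mul_left h3 _)
    · rw [z0]; exact InC.zero
  refine ⟨μ, mμ, ?_, ?_⟩
  · rw [hμ, add_sub_cancel, Units.mul_inv_cancel_left]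
  · have e1 : pderiv k (Matrix.trace (ξ * μ)) = Matrix.trace (ξ * δ p k) +
        Matrix.trace (F3.cv k (A p k) ξ * μ + ξ * (μ * δ p k)) := by
      rw [← F3.trace_cv k (A p k), F3.cv_mul, cμ, ← Matrix.trace_add]
      refine congrArg Matrix.trace ?_
      noncomm_ring
    have r1 : InI (b ^ 2) (F3.cv k (A p k) ξ * μ + ξ * (μ * δ p k)) := by
      rw [sq]
      exact InC.add (InI.mul hξ mμ) (InC.mul_left (InI.mul mμ h3) _)
    have p1 := F3.itg_parts (k := k) (c := c) (u := Matrix.trace (ξ * μ)) (by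
      rw [F3.trace_evM, evM_mul, z0, mul_zero, Matrix.trace_zero])
    have q1 := itg_mem (Ideal.mul_mem_left _ (F3.hw k c) (InC.trace r1))
    rw [F3.hat_face p _ k c (face_self p k c), p1, e1, mul_add, map_add, smul_add, sB,
      neg_add_rev, add_assoc, neg_add_cancel, add_zero]
    exact neg_mem (zsmul_mem q1 _)

end Vale.Agent.P215Z
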