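import Vale.Agent.P215Z.Frm.Flat

/-!
# P215: calculus lemmas for the first order formulas
-/

noncomputable section
namespace Vale.Agent.P215Z.F3
open MvPolynomial Classical
variable {O : Type} [CommRing O] [Algebra ℚ O]

/-- covariant derivative for a single matrix -/
def cv (k : Fin 4) (a x : MM O) : MM O := pd k x + ⁅a, x⁆

theorem cv_mul (k : Fin 4) (a x y : MM O) : cv k a (x * y) = cv k a x * y + x * cv k a y := by
  simp only [cv, pd_mul, Ring.lie_def]
  noncomm_ring

theorem cv_sub_one (k : Fin 4) (a x : MM O) : cv k a (x - 1) = cv k a x := by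
  simp only [cv, pd_sub, pd_one, Ring.lie_def]
  noncomm_ring

theorem trace_cv (k : Fin 4) (a x : MM O) :
    Matrix.trace (cv k a x) = pderiv k (Matrix.trace x) := by
  rw [cv, Matrix.trace_add, trace_pd, Ring.lie_def, Matrix.trace_sub, Matrix.trace_mul_comm a x,
    sub_self, add_zero]

theorem pd_conj {k : Fin 4} {a : MM O} {T : (MM O)ˣ} (hT : pd k (T : MM O) = T * a) (x : MM O) :
    pd k ((T : MM O) * x * (↑T⁻¹ : MM O)) = T * cv k a x * (↑T⁻¹ : MM O) := by
  have e : ∀ z : MM O, (↑T⁻¹ : MM O) * ((T : MM O) * z) = z := T.inv_mul_cancel_left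
  simp only [cv, pd_mul, pd_inv, hT, Ring.lie_def, mul_add, add_mul, mul_sub, sub_mul, mul_neg,
    mul_assoc, e]
  abel

theorem conj_back (T : (MM O)ˣ) (x : MM O) :
    (↑T⁻¹ : MM O) * ((T : MM O) * x * (↑T⁻¹ : MM O)) * T = x := by
  simp only [mul_assoc, Units.inv_mul, mul_one, Units.inv_mul_cancel_left]

theorem inI_of_cv {b : Ideal O} {k : Fin 4} {a : MM O} {T : (MM O)ˣ}
    (hT : pd k (T : MM O) = T * a) (c : Bool) {x : MM O} (h1 : InI b (cv k a x))
    (h2 : InI b (evM k c x)) : InI b x := by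
  have h : InI b ((T : MM O) * x * (↑T⁻¹ : MM O)) := by
    refine inI_of_pd k c ?_ ?_
    · rw [pd_conj hT]
      exact InC.mul_right (InC.mul_left h1 _) _
    · rw [evM_mul, evM_mul]
      exact InC.mul_right (InC.mul_left h2 _) _
  rw [← conj_back T x]
  exact InC.mul_right (InC.mul_left h _) _

theorem trace_evM (k : Fin 4) (c : Bool) (x : MM O) :
    ev k c (Matrix.trace x) = Matrix.trace (evM k c x) := by
  simp only [Matrix.trace, Matrix.diag, evM, map_sum, Matrix.map_apply]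

/-- the weight which vanishes on the opposite face -/
def hw (k : Fin 4) (c : Bool) : RR O := if c then X k else 1 - X k

theorem ev_X_self (k : Fin 4) (c : Bool) : ev k c (X k : RR O) = if c then 1 else 0 := by
  simp [ev]

theorem ev_X_ne {k j : Fin 4} (h : j ≠ k) (c : Bool) : ev k c (X j : RR O) = X j := by
  simp [ev, h]

theorem pderiv_hw_ne {k j : Fin 4} (h : j ≠ k) (c : Bool) : pderiv j (hw k c : RR O) = 0 := by
  cases c <;> simp [hw, pderiv_X, h.symm]

theorem itg_parts {k : Fin 4} {c : Bool} {u : RR O} (h : ev k c u = 0) :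
    itg u = -((if c then 1 else -1 : ℤ) • itg (hw k c * pderiv k u)) := by
  have e := itg_pderiv k (hw k c * u)
  rw [map_mul (ev k true), map_mul (ev k false), pderiv_mul, map_add] at e
  cases c
  · simp only [hw, Bool.false_eq_true, if_false, map_sub, map_one, ev_X_self, if_true, sub_self,
      zero_mul, h, mul_zero, map_zero, pderiv_X, Pi.single_eq_same, Derivation.map_one_eq_zero,
      zero_sub, neg_mul, one_mul, map_neg] at e ⊢
    simp only [neg_smul, one_smul, neg_neg]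
    linear_combination -e
  · simp only [hw, if_true, ev_X_self, Bool.false_eq_true, if_false, zero_mul, h, mul_zero,
      map_zero, pderiv_X, Pi.single_eq_same, one_mul, sub_self] at e ⊢
    simp only [one_smul]
    linear_combination e

theorem hat_face (p q : Pt) (k : Fin 4) (c : Bool) (h : q k = if c then p k + 1 else p k - 1) :
    (hat p q k : RR O) = hw k c := by
  cases c
  · simp only [Bool.false_eq_true, if_false] at h
    rw [hat, if_pos (by omega)]
    rfl
  · simp only [if_true] at h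
    rw [hat, if_neg (by omega), if_pos (by omega)]
    rfl

theorem face_comm (p : Pt) {k l : Fin 4} (h : k ≠ l) (c c' : Bool) :
    face (face p k c) l c' = face (face p l c') k c := by
  funext j
  by_cases h1 : j = k
  · subst h1
    rw [face_ne h, face_self, face_self, face_ne h]
  · by_cases h2 : j = l
    · subst h2
      rw [face_self, face_ne h1, face_ne h1, face_self]
    · rw [face_ne h2, face_ne h1, face_ne h1, face_ne h2]

/-- products modulo a square zero ideal -/
theorem mul_sq {M ii : Ideal O} (hii : ii * ii = ⊥) {x y : MM O} (h1 : InI M x) (h2 : InI ii x)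
    (hy : InI (M ⊔ ii) y) : InI (M ^ 2) (x * y) := by
  rw [inI_iff, Ideal.map_sup] at hy
  obtain ⟨y1, y2, g1, g2, rfl⟩ := InC.sup hy
  rw [mul_add]
  refine InC.add (InI.mono ?_ (InI.mul h1 g1)) (InI.mono ?_ (InI.mul h2 g2))
  · rw [sq]
  · rw [hii]; exact bot_le

theorem mul_mul_sq {M ii : Ideal O} (hii : ii * ii = ⊥) {x y z : MM O} (hx : InI ii x)
    (hy : InI (M ⊔ ii) y) (hz : InI (M ⊔ ii) z) : InI (M ^ 2) (x * y * z) := by
  refine mul_sq hii ?_ (InC.mul_right hx y) hz
  refine InI.mono ?_ (InI.mul hx hy)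
  rw [Ideal.mul_sup, hii, sup_bot_eq]
  exact Ideal.mul_le_right (I := ii) (J := M)

theorem inI_cv {b : Ideal O} {x : MM O} (hx : InI b x) (k : Fin 4) (a : MM O) :
    InI b (cv k a x) := by
  rw [cv, Ring.lie_def]
  exact InC.add (hx.pd k) (InC.sub (InC.mul_left hx _) (InC.mul_right hx _))

/-- conjugation acts trivially modulo `a * ii` -/
theorem conj_sub {a ii : Ideal O} {g g' y : MM O} (hg : InI a (g - 1)) (hg' : InI a (g' - 1))
    (hy : InI ii y) : InI (a * ii) (g * y * g' - y) := by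
  have e : g * y * g' - y = (g - 1) * y * g' + y * (g' - 1) := by noncomm_ring
  rw [e]
  refine InC.add (InC.mul_right (InI.mul hg hy) _) ?_
  rw [mul_comm]
  exact InI.mul hy hg'

section two
variable {k l : Fin 4} {Ak Al : MM O} {Ga Gb : (MM O)ˣ}

/-- the defect of `Ga` in the direction `l` -/
def BB (l : Fin 4) (Al : MM O) (Ga : (MM O)ˣ) : MM O := (↑Ga⁻¹ : MM O) * pd l (Ga : MM O) - Al

theorem cv_BB (ha : pd k (Ga : MM O) = Ga * Ak) :
    cv k Ak (BB l Al Ga) = -(pd k Al - pd l Ak + ⁅Ak, Al⁆) := by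
  have e : ∀ z : MM O, (↑Ga⁻¹ : MM O) * ((Ga : MM O) * z) = z := Ga.inv_mul_cancel_left
  simp only [cv, BB, pd_sub, pd_mul, pd_inv, pd_comm k l, ha, Ring.lie_def, mul_add,
    mul_sub, sub_mul, neg_mul, mul_assoc, e]
  abel

theorem cv_Lam (hb : pd l (Gb : MM O) = Gb * Al) :
    cv l Al ((↑Ga⁻¹ : MM O) * Gb) = -(BB l Al Ga * ((↑Ga⁻¹ : MM O) * Gb)) := by
  simp only [cv, BB, pd_mul, pd_inv, hb, Ring.lie_def, sub_mul, neg_mul, mul_assoc]
  abel

theorem pd_Lam' (hb : pd l (Gb : MM O) = Gb * Al) :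
    pd l ((Gb : MM O) * (↑Ga⁻¹ : MM O)) = -(Gb * BB l Al Ga * (↑Ga⁻¹ : MM O)) := by
  simp only [BB, pd_mul, pd_inv, hb, mul_sub, sub_mul, mul_neg, mul_assoc]
  abel

theorem first_core {M ii : Ideal O} (hii : ii * ii = ⊥) (hkl : k ≠ l) {c c' : Bool}
    (ha : pd k (Ga : MM O) = Ga * Ak) (hb : pd l (Gb : MM O) = Gb * Al)
    (hB : evM k c (BB l Al Ga) = 0) (hL : evM l c' ((↑Ga⁻¹ : MM O) * (Gb : MM O)) = 1) {ξ : MM O}
    (hξ : InI ii ξ) (h1 : InI M (cv k Ak ξ)) (h2 : InI M (cv l Al ξ))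
    (hF : InI (M ⊔ ii) (pd k Al - pd l Ak + ⁅Ak, Al⁆)) :
    itg (Matrix.trace (ξ * ((↑Ga⁻¹ : MM O) * (Gb : MM O) - 1))) -
      ((if c then 1 else -1 : ℤ) * (if c' then 1 else -1 : ℤ)) • itg (hw k c * hw l c' *
        Matrix.trace (ξ * (pd k Al - pd l Ak + ⁅Ak, Al⁆))) ∈ M ^ 2 := by
  set F := pd k Al - pd l Ak + ⁅Ak, Al⁆ with hFd
  set B := BB l Al Ga with hBd
  set L := (↑Ga⁻¹ : MM O) * (Gb : MM O) with hLd
  have cB : cv k Ak B = -F := cv_BB ha
  have cL : cv l Al L = -(B * L) := cv_Lam hb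
  have mB : InI (M ⊔ ii) B := by
    refine inI_of_cv ha c ?_ ?_
    · rw [cB]; exact InC.neg hF
    · rw [hB]; exact InC.zero
  have mL : InI (M ⊔ ii) (L - 1) := by
    refine inI_of_cv hb c' ?_ ?_
    · rw [cv_sub_one, cL]; exact InC.neg (InC.mul_right mB _)
    · rw [evM_sub, hL, evM_one, sub_self]; exact InC.zero
  have e1 : pderiv l (Matrix.trace (ξ * (L - 1))) = -Matrix.trace (ξ * B) +
      Matrix.trace (cv l Al ξ * (L - 1) - ξ * B * (L - 1)) := by
    rw [← trace_cv l Al, cv_mul, cv_sub_one, cL, ← Matrix.trace_neg, ← Matrix.trace_add]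
    refine congrArg Matrix.trace ?_
    noncomm_ring
  have e2 : pderiv k (Matrix.trace (ξ * B)) = -Matrix.trace (ξ * F) +
      Matrix.trace (cv k Ak ξ * B) := by
    rw [← trace_cv k Ak, cv_mul, cB, ← Matrix.trace_neg, ← Matrix.trace_add]
    refine congrArg Matrix.trace ?_
    noncomm_ring
  have r1 : InI (M ^ 2) (cv l Al ξ * (L - 1) - ξ * B * (L - 1)) :=
    InC.sub (mul_sq hii h2 (inI_cv hξ _ _) mL) (mul_mul_sq hii hξ mB mL)
  have r2 : InI (M ^ 2) (cv k Ak ξ * B) := mul_sq hii h1 (inI_cv hξ _ _) mB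
  have p1 := itg_parts (k := l) (c := c') (u := Matrix.trace (ξ * (L - 1))) (by
    rw [trace_evM, evM_mul, evM_sub, hL, evM_one, sub_self, mul_zero, Matrix.trace_zero])
  have p2 := itg_parts (k := k) (c := c) (u := hw l c' * Matrix.trace (ξ * B)) (by
    rw [map_mul, trace_evM, evM_mul, hB, mul_zero, Matrix.trace_zero, mul_zero])
  rw [pderiv_mul, pderiv_hw_ne hkl, zero_mul, zero_add, e2] at p2
  rw [e1] at p1
  have q1 := itg_mem (Ideal.mul_mem_left _ (hw l c') (InC.trace r1))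
  have q2 := itg_mem (Ideal.mul_mem_left _ (hw k c * hw l c') (InC.trace r2))
  set t1 := Matrix.trace (cv l Al ξ * (L - 1) - ξ * B * (L - 1))
  set t2 := Matrix.trace (cv k Ak ξ * B)
  set s := (if c then 1 else -1 : ℤ)
  set s' := (if c' then 1 else -1 : ℤ)
  have z1 : hw l c' * (-Matrix.trace (ξ * B) + t1) =
      -(hw l c' * Matrix.trace (ξ * B)) + hw l c' * t1 := by ring
  have z2 : hw k c * (hw l c' * (-Matrix.trace (ξ * F) + t2)) =
      -(hw k c * hw l c' * Matrix.trace (ξ * F)) + hw k c * hw l c' * t2 := by ring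
  rw [z1, map_add, map_neg, p2, z2, map_add, map_neg] at p1
  have e : itg (Matrix.trace (ξ * (L - 1))) - (s * s') • itg (hw k c * hw l c' *
      Matrix.trace (ξ * F)) = -(s' • itg (hw l c' * t1)) - (s * s') • itg (hw k c * hw l c' * t2) := by
    rw [p1]
    simp only [zsmul_eq_mul]
    push_cast
    ring
  rw [e]
  exact sub_mem (neg_mem (zsmul_mem q1 _)) (zsmul_mem q2 _)

theorem alpha_core {M a ii : Ideal O} (hkl : k ≠ l)
    (ha : pd k (Ga : MM O) = Ga * Ak) (hb : pd l (Gb : MM O) = Gb * Al)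
    (hB : evM k false (BB l Al Ga) = 0) (hL : evM l false ((Gb : MM O) * (↑Ga⁻¹ : MM O)) = 1)
    (ua : Ga ∈ UG a) (ub : Gb ∈ UG a) {y : M2 O} (hy : InC ii y)
    (hF : InI (M ⊔ a * ii) (pd k Al - pd l Ak + ⁅Ak, Al⁆ - cst y)) :
    InI (M ⊔ a * ii) (evM k true (evM l true ((Gb : MM O) * (↑Ga⁻¹ : MM O))) - 1 - cst y) := by
  set F := pd k Al - pd l Ak + ⁅Ak, Al⁆ with hFd
  set B := BB l Al Ga with hBd
  have cB : cv k Ak B = -F := cv_BB ha
  have hY : InI ii (cst y) := (inI_cst _ _).2 hy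
  have ua' : InI a ((↑Ga⁻¹ : MM O) - 1) := (UG a).inv_mem ua
  have s1 : InI (M ⊔ a * ii) ((Ga : MM O) * B * (↑Ga⁻¹ : MM O) + (X k : RR O) • cst y) := by
    refine inI_of_pd k false ?_ ?_
    · rw [pd_add, pd_conj ha, cB, pd_smul, pd_cst, smul_zero, add_zero, pderiv_X,
        Pi.single_eq_same, one_smul]
      have e : (Ga : MM O) * -F * (↑Ga⁻¹ : MM O) + cst y =
          -((Ga : MM O) * (F - cst y) * (↑Ga⁻¹ : MM O)) -
            ((Ga : MM O) * cst y * (↑Ga⁻¹ : MM O) - cst y) := by noncomm_ring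
      rw [e]
      exact InC.sub (InC.neg (InC.mul_right (InC.mul_left hF _) _))
        (InI.mono le_sup_right (conj_sub ua ua' hY))
    · rw [evM_add, evM_mul, evM_mul, hB, evM_smul, ev_X_self]
      simp only [mul_zero, zero_mul, Bool.false_eq_true, if_false, zero_smul, add_zero]
      exact InC.zero
  have uL : InI a ((Gb : MM O) * (↑Ga⁻¹ : MM O) - 1) := (UG a).mul_mem ub ((UG a).inv_mem ua)
  have s2 : InI (M ⊔ a * ii) ((Gb : MM O) * (↑Ga⁻¹ : MM O) - 1 -
      (X l : RR O) • (X k : RR O) • cst y) := by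
    refine inI_of_pd l false ?_ ?_
    · rw [pd_sub, pd_sub, pd_one, sub_zero, pd_Lam' hb, pd_smul, pd_smul, pd_cst, smul_zero,
        add_zero, pderiv_X, Pi.single_eq_same, one_smul, pderiv_X, Pi.single_eq_of_ne hkl,
        zero_smul, smul_zero, add_zero]
      have e0 : ∀ z : MM O, (↑Ga⁻¹ : MM O) * ((Ga : MM O) * z) = z := Ga.inv_mul_cancel_left
      have e : -((Gb : MM O) * B * (↑Ga⁻¹ : MM O)) - (X k : RR O) • cst y =
          -((Gb : MM O) * (↑Ga⁻¹ : MM O) *
            ((Ga : MM O) * B * (↑Ga⁻¹ : MM O) + (X k : RR O) • cst y)) +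
          (X k : RR O) • (((Gb : MM O) * (↑Ga⁻¹ : MM O) - 1) * cst y) := by
        simp only [mul_add, mul_assoc, e0, sub_mul, one_mul, smul_sub, mul_smul_comm]
        abel
      rw [e]
      exact InC.add (InC.neg (InC.mul_left s1 _))
        (InC.smul (InI.mono le_sup_right (InI.mul uL hY)) _)
    · rw [evM_sub, evM_sub, hL, evM_one, evM_smul, ev_X_self]
      simp only [sub_self, Bool.false_eq_true, if_false, zero_smul]
      exact InC.zero
  have s3 := (s2.evM l true).evM k true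
  simp only [evM_sub, evM_one, evM_smul, ev_X_self, ev_X_ne hkl, evM_cst, if_true,
    one_smul] at s3
  exact s3

end two

end Vale.Agent.P215Z.F3
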