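import Vale.Agent.P215Z.Frm.Flat
import Vale.Agent.P215Z.Frm.It.Xi

noncomputable section
namespace Vale.Agent.P215Z
open MvPolynomial Classical
variable {O : Type} [CommRing O] [Algebra ℚ O]

/-! F7: source currents -/

variable {a : Ideal O} (ha : IsNilpotent a) {K : Set Pt} (hK : Cx K) {A : F1 O} (hA : Good1 K A)
  (hA' : In1 K a A)

omit [Algebra ℚ O] in
theorem It.J_pos (A : F1 O) {it : Item O} {τ : Pt} (h : it.Star τ) (i j : Fin 4) : it.J A τ i j =
    (it.o * eps4 i j it.k it.l) • (hat τ it.σ it.k * hat τ it.σ it.l : RR O) • it.xi A τ :=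
  if_pos h

omit [Algebra ℚ O] in
theorem It.J_neg (A : F1 O) {it : Item O} {τ : Pt} (h : ¬it.Star τ) (i j : Fin 4) :
    it.J A τ i j = 0 := if_neg h

omit [Algebra ℚ O] in
theorem It.J_eps (A : F1 O) {it : Item O} {i j : Fin 4} (h : eps4 i j it.k it.l = 0) (τ : Pt) :
    it.J A τ i j = 0 := by
  rw [Item.J, h, mul_zero, zero_smul, ite_self]

theorem It.inc_upd {R : Type} {it : Item R} (hv : it.Valid) {p : Pt} {n : Fin 4}
    (ho : ∀ r, r ≠ n → Odd (p r)) (z : ℤ) (h : it.inc (Function.update p n z) ≠ 0) :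
    it.Star (Function.update p n z) ∧ (n = it.k ∨ n = it.l) ∧ z = it.σ n := by
  have h2 := It.inc_ne (n := n) hv h fun r hr => by
    rw [Function.update_of_ne hr]
    exact ho r hr
  rwa [Function.update_self] at h2

omit [Algebra ℚ O] in
/-- the differential of the Whitney form -/
theorem It.d_hat {R : Type} {it : Item R} (hv : it.Valid) {p : Pt} (hs : it.Star p)
    {i j m n : Fin 4} (hij : i ≠ j) (hjm : j ≠ m) (him : i ≠ m) (hi : n ≠ i) (hj : n ≠ j)
    (hm : n ≠ m) (ho : ∀ r, r ≠ n → Odd (p r)) :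
    (it.o * eps4 j m it.k it.l) • pderiv i (hat p it.σ it.k * hat p it.σ it.l : RR O) +
      (it.o * eps4 m i it.k it.l) • pderiv j (hat p it.σ it.k * hat p it.σ it.l : RR O) +
      (it.o * eps4 i j it.k it.l) • pderiv m (hat p it.σ it.k * hat p it.σ it.l : RR O) =
      eps4 i j m n • ∑ d ∈ Finset.Icc (-1 : ℤ) 1, it.inc (Function.update p n (p n + d)) •
        (hat p (Function.update p n (p n + d)) n : RR O) := by
  have h1 := It.inc_upd hv ho
  have h3 := congrArg (Int.cast : ℤ → RR O) (It.eps_k i j m n _ _ hij hjm him hi hj hm hv.1)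
  have h4 := congrArg (Int.cast : ℤ → RR O) (It.eps_l i j m n _ _ hij hjm him hi hj hm hv.1)
  have h5 : n = it.k ∨ n = it.l → ∑ d ∈ Finset.Icc (-1 : ℤ) 1,
      it.inc (Function.update p n (p n + d)) • (hat p (Function.update p n (p n + d)) n : RR O) =
      it.inc (Function.update p n (it.σ n)) • hat p it.σ n := fun h6 => by
    have h7 := abs_le.1 (It.star_le hs h6)
    rw [Finset.sum_eq_single_of_mem (it.σ n - p n) (Finset.mem_Icc.2 (by omega)),
      add_sub_cancel, It.hat_congr rfl (Function.update_self _ _ _)]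
    intro d _ hd
    by_cases h8 : it.inc (Function.update p n (p n + d)) = 0
    · rw [h8, zero_smul]
    · exact absurd (h1 _ h8).2.2 (by omega)
  have h6 : n = it.k ∨ n = it.l → it.Star (Function.update p n (it.σ n)) := fun h7 =>
    It.star_upd hs h7 (fun r hr => Function.update_of_ne hr _ _) (by simp)
  have h7 : ∀ r, r ≠ n → It.sg (Function.update p n (it.σ n)) it.σ r = It.sg p it.σ r :=
    fun r hr => by rw [It.sg, It.sg, Function.update_of_ne hr]
  simp only [Derivation.leibniz, It.pderiv_hat, smul_eq_mul, zsmul_eq_mul, Int.cast_mul,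
    Int.cast_add] at h3 h4 ⊢
  by_cases h8 : n = it.l
  · have h9 : it.k ≠ n := h8 ▸ hv.1
    rw [if_pos h8] at h3
    rw [if_neg h9.symm, Int.cast_zero] at h4
    simp only [zsmul_eq_mul] at h5
    rw [h5 (Or.inr h8), It.inc_k hv (h6 (Or.inr h8))
      (by rw [Function.update_of_ne h9]; exact ho _ h9) (by rw [← h8, Function.update_self]),
      h7 _ h9, Int.cast_mul, h8]
    rw [h8] at h3
    linear_combination ((it.o : RR O) * (It.sg p it.σ it.k : RR O) * hat p it.σ it.l) * h3 +
      ((it.o : RR O) * (It.sg p it.σ it.l : RR O) * hat p it.σ it.k) * h4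
  by_cases h9 : n = it.k
  · rw [if_neg h8, Int.cast_zero] at h3
    rw [if_pos h9, Int.cast_neg] at h4
    simp only [zsmul_eq_mul] at h5
    rw [h5 (Or.inl h9), It.inc_l hv (h6 (Or.inl h9))
      (by rw [Function.update_of_ne (Ne.symm h8)]; exact ho _ (Ne.symm h8))
      (by rw [← h9, Function.update_self]), h7 _ (Ne.symm h8), Int.cast_neg, Int.cast_mul, h9]
    rw [h9] at h4
    linear_combination ((it.o : RR O) * (It.sg p it.σ it.k : RR O) * hat p it.σ it.l) * h3 +
      ((it.o : RR O) * (It.sg p it.σ it.l : RR O) * hat p it.σ it.k) * h4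
  · rw [if_neg h8, Int.cast_zero] at h3
    rw [if_neg h9, Int.cast_zero] at h4
    rw [Finset.sum_eq_zero fun d _ => by
      rw [of_not_not fun h => (h1 _ h).2.1.elim h9 h8, Int.cast_zero, zero_mul]]
    linear_combination ((it.o : RR O) * (It.sg p it.σ it.k : RR O) * hat p it.σ it.l) * h3 +
      ((it.o : RR O) * (It.sg p it.σ it.l : RR O) * hat p it.σ it.k) * h4

theorem Item.J_inI (A : F1 O) (it : Item O) {ii : Ideal O} (h : InC ii it.Y) (τ : Pt) (i j : Fin 4) :
    InI ii (it.J A τ i j) := by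
  by_cases hs : it.Star τ
  · rw [It.J_pos A hs]
    exact InC.zsmul (InC.smul (It.xi_inI A it h τ) _) _
  · rw [It.J_neg A hs]
    exact InC.zero
theorem Item.J_of_o (A : F1 O) (it : Item O) (h : it.o = 0) : it.J A = 0 := by
  funext τ i j
  rw [Item.J, h, zero_mul, zero_smul, ite_self]
  rfl
theorem Item.pair_J (A : F1 O) (it : Item O) (hv : it.Valid) {p : Pt} (hp : it.Star p) (e : F2 O)
    (he : ∀ i j, e p i j = -e p j i) : pairD (it.J A) e p =
      it.o • (hat p it.σ it.k * hat p it.σ it.l * Matrix.trace (it.xi A p * e p it.k it.l)) := by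
  have h1 : ∀ k l, ∑ i, ∑ j, eps4 i j k l • Matrix.trace (it.J A p i j * e p k l) =
      (∑ i, ∑ j, eps4 i j k l * eps4 i j it.k it.l) • it.o •
        (hat p it.σ it.k * hat p it.σ it.l * Matrix.trace (it.xi A p * e p k l)) := fun k l => by
    simp only [It.J_pos A hp, Matrix.smul_mul, Matrix.trace_smul, smul_eq_mul, Finset.sum_mul,
      Finset.sum_smul, smul_smul, mul_comm it.o, mul_assoc]
  rw [pairD, It.sum4]
  simp only [h1, It.eps_pair _ _ _ _ hv.1, sub_smul, ite_smul, zero_smul, Finset.sum_sub_distrib,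
    Finset.sum_ite_irrel, Finset.sum_ite_eq', Finset.mem_univ, if_true, Finset.sum_const_zero]
  rw [he it.l it.k, mul_neg, Matrix.trace_neg, mul_neg, smul_neg, smul_neg, sub_neg_eq_add]
  module
/-- a nonzero component forces the cell to contain the two-cell of the item -/
theorem Item.face_of_J (A : F1 O) (it : Item O) (hv : it.Valid) {τ : Pt} {i j : Fin 4}
    (h : it.J A τ i j ≠ 0) : it.Star τ ∧ IsFace it.σ τ := by
  have hs : it.Star τ := by
    by_contra hs
    exact h (It.J_neg A hs i j)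
  exact ⟨hs, It.face_sig hv hs⟩
theorem pairD_symm (e e' : F2 O) (p : Pt) : pairD e e' p = pairD e' e p := by
  rw [pairD, pairD, It.sum4]
  refine congrArg _ (Finset.sum_congr rfl fun k _ => Finset.sum_congr rfl fun l _ =>
    Finset.sum_congr rfl fun i _ => Finset.sum_congr rfl fun j _ => ?_)
  rw [It.eps_swap, Matrix.trace_mul_comm]

include ha hK hA hA'
theorem Item.J_good (it : Item O) (hv : it.Valid) : Good2 K (it.J A) := by
  refine ⟨fun p _ i j _ _ => ?_, fun p hp i j m _ _ he => ?_, fun p hp m c i j ho _ _ hi hj => ?_⟩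
  · by_cases hs : it.Star p
    · rw [It.J_pos A hs, It.J_pos A hs, It.eps_anti, mul_neg, neg_smul]
    · rw [It.J_neg A hs, It.J_neg A hs, neg_zero]
  · by_cases hs : it.Star p
    · have h1 := It.sg_eq (It.star_even hv hs he)
      have h2 : ∀ r, pderiv m (hat p it.σ r : RR O) = 0 := fun r => by
        rw [It.pderiv_hat]
        split_ifs with h3
        · rw [← h3, h1, mul_zero, Int.cast_zero]
        · rw [zero_mul, Int.cast_zero]
      rw [It.J_pos A hs, It.pd_zsmul, It.pd_smul, It.xi_eq,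
        It.pd_Ad (It.pd_tr ha hK hA hA' hv hs hp he), Derivation.leibniz, h2, h2]
      simp
    · rw [It.J_neg A hs, It.pd_zero]
  · by_cases h1 : eps4 i j it.k it.l = 0
    · rw [It.J_eps A h1, It.J_eps A h1, It.evM_zero]
    have hm := It.eps_ne _ _ _ _ m h1 hi.symm hj.symm
    have h2 := It.star_face (c := c) hv hm ho
    by_cases hs : it.Star p
    swap
    · rw [It.J_neg A hs, It.J_neg A fun h => hs (h2.1 h).1, It.evM_zero]
    have h3 := It.ev_hat (O := O) (It.even_sig hv hm) ho (It.star_le hs hm) c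
    rw [It.J_pos A hs, It.evM_zsmul, It.evM_smul, map_mul]
    by_cases h4 : face p m c m = it.σ m
    · rw [if_pos h4, ← It.hat_eq h4] at h3
      have h5 : ∀ r, ev m c (hat p it.σ r : RR O) = hat (face p m c) it.σ r := fun r => by
        by_cases h6 : r = m
        · rw [h6, h3]
        · rw [It.ev_hat_ne h6, It.hat_congr (It.face_ne p c h6) rfl]
      rw [It.J_pos A (h2.2 ⟨hs, h4⟩), h5, h5, It.xi_eq, It.xi_eq,
        It.evM_Ad (It.ev_tr ha hK hA hA' hv hs hp hm ho h4)]
    · rw [if_neg h4] at h3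
      rw [It.J_neg A fun h => h4 (h2.1 h).2]
      rcases hm with rfl | rfl
      · rw [h3, zero_mul, zero_smul, smul_zero]
      · rw [h3, mul_zero, zero_smul, smul_zero]
theorem Item.xi_Up (it : Item O) (hv : it.Valid) {b ii : Ideal O} (hii : ii * ii = ⊥)
    (hY : InC ii it.Y) {τ : Pt} (hτ : τ ∈ K) (hs : it.Star τ) (hf : FlatAt A (b ⊔ ii) τ) :
    InI (ii * b) (it.xi A τ - Ad (Up A τ) (cst (at0 (it.xi A τ)))) := by
  rw [It.xi_eq, It.at0_Ad, at0_cst, It.cst_Ad, ← Ad_mul]
  exact It.Ad_cg hii ((inI_cst _ _).2 hY) (It.tr_Up ha hK hA hA' hv hτ hs hf)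
theorem Item.xi_cov (it : Item O) (hv : it.Valid) {b ii : Ideal O} (hii : ii * ii = ⊥)
    (hY : InC ii it.Y) {τ : Pt} (hτ : τ ∈ K) (hs : it.Star τ) (hf : FlatAt A (b ⊔ ii) τ)
    {m : Fin 4} (hm : Odd (τ m)) : InI (ii * b) (cov A τ m (it.xi A τ)) := by
  have h1 := It.inI_cov A τ (it.xi_Up ha hK hA hA' hv hii hY hτ hs hf) m
  have h2 := (inI_cst _ _).2 (It.xi_inI A it hY τ).at0
  have h3 := Up_cov ha hK hA hA' hτ hf hm
  have h4 : ii * (b ⊔ ii) = ii * b := by rw [Ideal.mul_sup, hii, sup_bot_eq]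
  rw [← sub_add_cancel (it.xi A τ) (Ad (Up A τ) (cst (at0 (it.xi A τ)))), It.cov_add]
  refine InC.add h1 ?_
  rw [It.cov_Ad, ← h4]
  refine InC.sub (InI.mul (InC.mul_left h2 _) h3) ?_
  rw [mul_comm ii]
  exact InI.mul (InC.mul_left h3 _) (InC.Ad h2 _)
theorem Item.xi_step (it : Item O) (hv : it.Valid) {b ii : Ideal O} (hii : ii * ii = ⊥)
    (hY : InC ii it.Y) {τ τ' : Pt} (hs : it.Star τ) (hs' : it.Star τ')
    (hf : FlatStep K A (b ⊔ ii) τ τ') :
    InI (ii * b) (it.xi A τ' - Ad (step A τ τ') (it.xi A τ)) := by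
  rw [It.xi_eq, It.xi_eq, ← Ad_mul]
  exact It.Ad_cg hii ((inI_cst _ _).2 hY) (It.tr_step ha hK hA hA' hv hs hs' hf)
theorem Item.J_congr {A' : F1 O} (hB : In1 K a A') (it it' : Item O) (hv : it.Valid)
    (h1 : it'.σ = it.σ) (h2 : it'.k = it.k) (h3 : it'.l = it.l) (h4 : it'.o = it.o)
    {b c ii : Ideal O} (h : In1 K b (A - A')) (hY : InC ii it.Y) (hc : InC c (it.Y - it'.Y)) :
    In2 K (c ⊔ ii * b) (it.J A - it'.J A') := by
  have _ := hA
  intro τ hτ i j _ _
  have h5 : it'.Star τ ↔ it.Star τ := by rw [Item.Star, Item.Star, h1, h2, h3]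
  change InI _ (it.J A τ i j - it'.J A' τ i j)
  by_cases hs : it.Star τ
  · have h6 : It.tr A' it' τ = It.tr A' it τ := by rw [It.tr, It.tr, It.mid, It.mid, h1, h2]
    have h7 : Ad (It.tr A it τ) (cst it.Y) - Ad (It.tr A' it τ) (cst it'.Y) =
        Ad (It.tr A' it τ) (cst (it.Y - it'.Y)) +
          (Ad (It.tr A it τ) (cst it.Y) - Ad (It.tr A' it τ) (cst it.Y)) := by
      rw [show cst (it.Y - it'.Y) = cst it.Y - cst it'.Y from Matrix.map_sub _ (map_sub _) _ _]
      simp only [Ad, mul_sub, sub_mul]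
      abel
    rw [It.J_pos A hs, It.J_pos A' (h5.2 hs), h1, h2, h3, h4, ← smul_sub, ← smul_sub, It.xi_eq,
      It.xi_eq, h6, h7]
    exact InC.zsmul (InC.smul (InC.add (InI.mono le_sup_left (InC.Ad ((inI_cst _ _).2 hc) _))
      (InI.mono le_sup_right (It.Ad_cg' ((inI_cst _ _).2 hY)
        (It.tr_congr ha hK hA' hB hv h hτ hs)))) _) _
  · rw [It.J_neg A hs, It.J_neg A' (mt h5.1 hs), sub_zero]
    exact InC.zero

/-- the differential of one current -/
theorem It.d_item (it : Item O) (hv : it.Valid) {b ii : Ideal O} (hii : ii * ii = ⊥)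
    (hY : InC ii it.Y) {p : Pt} (hp : p ∈ K) (hf : it.Star p → FlatAt A (b ⊔ ii) p)
    {i j m n : Fin 4} (hij : i ≠ j) (hjm : j ≠ m) (him : i ≠ m) (hi : n ≠ i) (hj : n ≠ j)
    (hm : n ≠ m) (ho : ∀ r, r ≠ n → Odd (p r)) :
    InI (ii * b) (dA2 A (it.J A) p i j m - eps4 i j m n • ∑ d ∈ Finset.Icc (-1 : ℤ) 1,
      (hat p (Function.update p n (p n + d)) n : RR O) •
        it.inc (Function.update p n (p n + d)) • it.xi A p) := by
  have h1 := It.inc_upd hv ho
  by_cases hs : it.Star p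
  swap
  · rw [Finset.sum_eq_zero, dA2, It.J_neg A hs, It.J_neg A hs, It.J_neg A hs, It.cov_zero,
      It.cov_zero, It.cov_zero, smul_zero, add_zero, add_zero, sub_zero]
    · exact InC.zero
    · intro d hd
      by_cases h2 : it.inc (Function.update p n (p n + d)) = 0
      · rw [h2, zero_smul, smul_zero]
      · obtain ⟨h3, h4, h5⟩ := h1 _ h2
        rw [Finset.mem_Icc] at hd
        refine absurd (It.star_upd h3 h4 (fun r hr => (Function.update_of_ne hr _ _).symm) ?_) hs
        rw [abs_le]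
        omega
  have h2 := It.d_hat (O := O) hv hs hij hjm him hi hj hm ho
  have h3 : ∀ r, r ≠ n → ∀ (z : ℤ) (f : RR O), InI (ii * b) (z • f • cov A p r (it.xi A p)) :=
    fun r hr z f => InC.zsmul (InC.smul
      (it.xi_cov ha hK hA hA' hv hii hY hp hs (hf hs) (ho r hr)) _) _
  have h4 : eps4 i j m n • ∑ d ∈ Finset.Icc (-1 : ℤ) 1,
      (hat p (Function.update p n (p n + d)) n : RR O) •
        it.inc (Function.update p n (p n + d)) • it.xi A p =
      (eps4 i j m n • ∑ d ∈ Finset.Icc (-1 : ℤ) 1, it.inc (Function.update p n (p n + d)) •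
        (hat p (Function.update p n (p n + d)) n : RR O)) • it.xi A p := by
    rw [smul_assoc, Finset.sum_smul]
    exact congrArg _ (Finset.sum_congr rfl fun d _ => by rw [smul_assoc, smul_comm])
  have h5 : ∀ x1 x2 x3 y1 y2 y3 : MM O,
      x1 + y1 + (x2 + y2) + (x3 + y3) - (x1 + x2 + x3) = y1 + y2 + y3 := fun _ _ _ _ _ _ => by abel
  rw [h4, ← h2, dA2, It.J_pos A hs, It.J_pos A hs, It.J_pos A hs, It.cov_smul, It.cov_smul,
    It.cov_smul, add_smul, add_smul, h5]
  exact InC.add (InC.add (h3 i hi.symm _ _) (h3 j hj.symm _ _)) (h3 m hm.symm _ _)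

theorem JJ_closed {ι G : Type} [Fintype ι] (it : ι → Item O) (mk : ι → G) (ii : G → Ideal O)
    (hii : ∀ g, ii g * ii g = ⊥) (hia : ∀ g, ii g ≤ a) {b c : Ideal O}
    (hv : ∀ x, (it x).o ≠ 0 → (it x).Valid) (hY : ∀ x, InC (ii (mk x)) (it x).Y)
    (hf : ∀ x, (it x).o ≠ 0 → ∀ τ ∈ K, (it x).Star τ → FlatAt A (b ⊔ ii (mk x)) τ)
    (hcl : ∀ θ ∈ K, InI c (∑ x, (it x).inc θ • (it x).xi A θ)) :
    In3 K (c ⊔ a * b) (dA2 A (JJ A it)) := by
  intro p hp i j m hi hj hm hij hjm him
  obtain ⟨n, h1, h2, h3, h4⟩ := It.exists_n i j m hij hjm him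
  have ho : ∀ r, r ≠ n → Odd (p r) := fun r hr => by
    rcases h4 r hr with rfl | rfl | rfl <;> assumption
  have hle : ∀ x, ii (mk x) * b ≤ c ⊔ a * b := fun x =>
    (Ideal.mul_mono_left (hia _)).trans le_sup_right
  have h5 : dA2 A (JJ A it) p i j m = ∑ x, (dA2 A ((it x).J A) p i j m -
      eps4 i j m n • ∑ d ∈ Finset.Icc (-1 : ℤ) 1,
        (hat p (Function.update p n (p n + d)) n : RR O) •
          (it x).inc (Function.update p n (p n + d)) • (it x).xi A p) +
      eps4 i j m n • ∑ d ∈ Finset.Icc (-1 : ℤ) 1,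
        (hat p (Function.update p n (p n + d)) n : RR O) •
          ∑ x, (it x).inc (Function.update p n (p n + d)) • (it x).xi A p := by
    rw [Finset.sum_sub_distrib, ← Finset.smul_sum, Finset.sum_comm]
    simp only [← Finset.smul_sum, sub_add_cancel, dA2, JJ, Finset.sum_apply, It.cov_sum,
      Finset.sum_add_distrib]
  rw [h5]
  refine InC.add (InC.sum _ _ fun x _ => ?_) (InC.zsmul (InC.sum _ _ fun d hd => InC.smul ?_ _) _)
  · by_cases h6 : (it x).o = 0
    · simp only [(it x).J_of_o A h6, It.inc_of_o h6, dA2, Pi.zero_apply, It.cov_zero, zero_smul,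
        smul_zero, Finset.sum_const_zero, add_zero, sub_zero]
      exact InC.zero
    · exact InI.mono (hle x) (It.d_item ha hK hA hA' (it x) (hv x h6) (hii _) (hY x) hp
        (hf x h6 p hp) hij hjm him h1 h2 h3 ho)
  · rw [Finset.mem_Icc] at hd
    generalize hθ : Function.update p n (p n + d) = θ
    have h6 : ∀ r, r ≠ n → p r = θ r := fun r hr => by rw [← hθ, Function.update_of_ne hr]
    have h7 : θ n = p n + d := by rw [← hθ, Function.update_self]
    have h8 : ∀ x, (it x).inc θ ≠ 0 → (it x).o ≠ 0 ∧ (it x).Star θ ∧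
        (n = (it x).k ∨ n = (it x).l) ∧ θ n = (it x).σ n := fun x h => by
      have h9 : (it x).o ≠ 0 := fun h9 => h (It.inc_of_o h9 θ)
      exact ⟨h9, It.inc_ne (hv x h9) h fun r hr => h6 r hr ▸ ho r hr⟩
    by_cases h9 : Even (θ n)
    · have h10 : It.Nx θ p n := ⟨h9, h6, abs_le.2 (by omega)⟩
      have h11 : ∑ x, (it x).inc θ • (it x).xi A p =
          ∑ x, (it x).inc θ • ((it x).xi A p - Ad (step A θ p) ((it x).xi A θ)) +
            Ad (step A θ p) (∑ x, (it x).inc θ • (it x).xi A θ) := by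
        simp only [Ad, smul_sub, Finset.sum_sub_distrib, Finset.mul_sum, Finset.sum_mul,
          Matrix.mul_smul, Matrix.smul_mul, sub_add_cancel]
      rw [h11]
      refine InC.add (InC.sum _ _ fun x _ => ?_)
        (InI.mono le_sup_left (InC.Ad (hcl θ (hK.isFace hp h10.isFace)) _))
      by_cases h12 : (it x).inc θ = 0
      · rw [h12, zero_smul]
        exact InC.zero
      · obtain ⟨k1, k2, k3, k4⟩ := h8 x h12
        have k5 := It.star_upd k2 k3 h6 (k4 ▸ h10.2.2)
        exact InC.zsmul (InI.mono (hle x) ((it x).xi_step ha hK hA hA' (hv x k1) (hii _) (hY x) k2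
          k5 ⟨h10.adj, p, hp, hf x k1 p hp k5, h10.isFace, It.isFace_refl p⟩)) _
    · rw [Finset.sum_eq_zero fun x _ => ?_]
      · exact InC.zero
      · have h10 : (it x).inc θ = 0 := by
          by_contra h
          obtain ⟨k1, -, k3, k4⟩ := h8 x h
          exact h9 (k4 ▸ It.even_sig (hv x k1) k3)
        rw [h10, zero_smul]

end Vale.Agent.P215Z
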