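import Vale.Agent.P215Z.Frm.Defs2
import Vale.Agent.P215Z.Frm.CS
import Vale.Agent.P215Z.Coh.Main

noncomputable section
namespace Vale.Agent.P215Z
open MvPolynomial Classical
variable {O : Type} [CommRing O] [Algebra ℚ O]

/-! F6b: the concrete complexes -/
theorem cx_KdQ (n : ℕ) : Cx (KdQ n) := by
  rintro p ⟨h1, l, h2⟩ k c ⟨m, hm⟩
  have h3 : l ≠ k := by
    rintro rfl
    omega
  refine ⟨fun j => ?_, l, by rwa [face, Function.update_of_ne h3]⟩
  by_cases h : j = k
  · subst h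
    have := h1 j
    rw [face, Function.update_self]
    split_ifs <;> omega
  · rw [face, Function.update_of_ne h]
    exact h1 j

theorem cx_KS (N : ℕ) : Cx (KS N) := fun p hp k c hk =>
  ⟨⟨cx_Kof _ p hp.1.1 k c hk, cx_Kof _ p hp.1.2 k c hk⟩, cx_Kof _ p hp.2 k c hk⟩

theorem Poin.inBox {N : ℕ} {a b q : Pt} (ha : a 3 = 0) (hb : b 3 = 3) (h1 : 0 ≤ q 3)
    (h2 : q 3 < N * 3) : InBox N a b (Function.update q 3 0) ↔ InBox N a b q := by
  refine forall_congr' fun j => ?_
  by_cases h : j = 3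
  · subst h
    rw [Function.update_self, ha, hb]
    omega
  · rw [Function.update_of_ne h]

theorem KB_update {N : ℕ} {p : Pt} (hp : p ∈ KB N) : Function.update p 3 0 ∈ KB N := by
  obtain ⟨q, ⟨⟨h1, h2⟩, h3⟩, h4⟩ := hp
  have h5 : (N : ℤ) * 0 ≤ q 3 ∧ q 3 < N * 3 := h1 3
  have h6 : ∀ c ∈ caves, c.1 3 = 0 ∧ c.2 3 = 3 := by decide
  have h7 : ∀ i : Fin 3, org (i, false) 3 = 0 := by decide
  refine ⟨Function.update q 3 0, ⟨⟨(Poin.inBox rfl rfl (by omega) h5.2).2 h1, fun c hc h =>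
    h2 c hc ((Poin.inBox (h6 c hc).1 (h6 c hc).2 (by omega) h5.2).1 h)⟩, fun i h =>
    h3 i ((Poin.inBox (h7 i) (by rw [Pi.add_apply, h7]; rfl) (by omega) h5.2).1 h)⟩, fun j => ?_⟩
  by_cases h : j = 3
  · subst h
    simp [cell]
  · simpa [cell, Function.update_of_ne h] using h4 j

theorem Is3.mem {n : ℕ} {τ : Pt} {l : Fin 4} (h : Is3 n τ l) : τ ∈ KdQ n := by
  refine ⟨fun j => ?_, l, h.1⟩
  by_cases hj : j = l
  · subst hj
    have := h.1
    omega
  · exact (h.2 j hj).2

theorem Is3.unique {n : ℕ} {τ : Pt} {l l' : Fin 4} (h : Is3 n τ l) (h' : Is3 n τ l') : l = l' := by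
  by_contra hl
  obtain ⟨m, hm⟩ := (h'.2 l hl).1
  have := h.1
  omega

theorem exists_is3 {n : ℕ} (hn : 0 < n) {p : Pt} (hp : p ∈ KdQ n) : ∃ τ l, Is3 n τ l ∧ IsFace p τ := by
  obtain ⟨h1, l, h2⟩ := hp
  refine ⟨fun j => if j = l ∨ Odd (p j) then p j else if p j = 0 then 1 else p j - 1, l,
    ⟨by simpa using h2, fun j hj => ?_⟩, fun j => ?_⟩
  · have := h1 j
    simp only [hj, false_or, Int.odd_iff]
    split_ifs <;> omega
  · simp only [Int.odd_iff]
    split_ifs with a b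
    · exact .inl rfl
    · exact .inr ⟨by norm_num, by rw [b]; norm_num⟩
    · exact .inr ⟨by omega, by norm_num⟩

theorem Poin.ex_face (n : ℕ) (τ : Pt) (l : Fin 4) (c : Bool) :
    (∃ q ∈ Q0 n, τ = face (cell q) l c) ↔ (∀ j, j ≠ l → Odd (τ j) ∧ 0 ≤ τ j ∧ τ j ≤ 2 * n) ∧
      τ l % 2 = 0 ∧ (if c then 2 else 0) ≤ τ l ∧ τ l ≤ 2 * n - (if c then 0 else 2) := by
  constructor
  · rintro ⟨q, hq, rfl⟩
    simp only [Q0, Fintype.mem_piFinset, Finset.mem_Ico] at hq
    refine ⟨fun j hj => ?_, ?_⟩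
    · have := hq j
      simp only [face, Function.update_of_ne hj, cell, Int.odd_iff]
      omega
    · have := hq l
      simp only [face, Function.update_self, cell]
      split_ifs <;> omega
  · rintro ⟨h1, h2⟩
    refine ⟨fun j => (if j = l ∧ c then τ j - 2 else τ j) / 2, ?_, funext fun j => ?_⟩
    · simp only [Q0, Fintype.mem_piFinset, Finset.mem_Ico]
      intro j
      by_cases hj : j = l
      · subst hj
        cases c <;> simp at h2 ⊢ <;> omega
      · have := h1 j hj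
        simp only [hj, false_and, if_false, Int.odd_iff] at this ⊢
        omega
    · by_cases hj : j = l
      · subst hj
        cases c <;> simp [face, cell] at h2 ⊢ <;> omega
      · have := h1 j hj
        simp only [face, Function.update_of_ne hj, cell, hj, false_and, if_false,
          Int.odd_iff] at this ⊢
        omega

theorem oX_Q0 {n : ℕ} (hn : 0 < n) (τ : Pt) (l : Fin 4) :
    oX (Q0 n) τ l = if Is3 n τ l then oQ τ l else 0 := by
  simp only [oX, Poin.ex_face, Is3, oQ]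
  by_cases h : ∀ j, j ≠ l → Odd (τ j) ∧ 0 ≤ τ j ∧ τ j ≤ 2 * n
  · simp only [if_true, Bool.false_eq_true, if_false, and_iff_right h, and_iff_left h]
    split_ifs <;> omega
  · simp only [h, false_and, and_false, if_false, sub_self]

variable {b k : Ideal O}

namespace Poin

theorem face_eq (p : Pt) (k : Fin 4) (c : Bool) : face p k c = Fm.fc p k c := by
  funext j
  by_cases h : j = k
  · subst h
    cases c <;> simp [face, Fm.fc, ee]
  · cases c <;> simp [face, Fm.fc, ee, h]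

theorem fc_ne (p : Pt) {k i : Fin 4} (h : i ≠ k) (c : Bool) : Fm.fc p k c i = p i := by
  rw [← face_eq, face, Function.update_of_ne h]

theorem KdQ_bd {n : ℕ} (hn : 0 < n) : KdQ n = Coh.Bd 0 fun _ => 2 * n := by
  ext p
  refine and_congr_right fun _ => exists_congr fun l => (and_iff_right ?_).symm
  simpa using hn

theorem isV_zero : Coh.IsV 0 := fun _ => by simp

theorem isV_two (n : ℕ) : Coh.IsV fun _ => 2 * n := fun _ => by simp

/-- the tangential components -/
def tr1 (e : F1 O) : F1 O := fun p i => if Odd (p i) then e p i else 0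

/-- the tangential components -/
def tr2 (K : Set Pt) (e : F2 O) : F2 O :=
  fun p i j => if p ∈ K ∧ Odd (p i) ∧ Odd (p j) then e p i j else 0

variable {K : Set Pt}

omit [Algebra ℚ O] in
theorem is1 {e : F1 O} (he : Good1 K e) : Fm.Is1 K (tr1 e) := fun i => by
  refine ⟨fun p _ j hj h => ?_, fun p hp j hj => ?_, fun p hp j hj h c => ?_⟩
  · rw [Finset.mem_singleton.1 hj] at h
    exact if_neg h
  · unfold tr1
    split_ifs with h
    · exact he.indep p hp i j h (Int.not_odd_iff_even.1 hj)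
    · exact map_zero _
  · have h1 : i ≠ j := fun h1 => hj (Finset.mem_singleton.2 h1.symm)
    unfold tr1
    rw [fc_ne p h1]
    split_ifs with h2
    · rw [← face_eq]
      exact (he.compat p hp j c i h h2 h1).symm
    · exact map_zero _

omit [Algebra ℚ O] in
theorem good1 {η : F1 O} (h : Fm.Is1 K η) : Good1 K η :=
  ⟨fun p hp i j _ hj => (h i).cst p hp j (Int.not_odd_iff_even.2 hj), fun p hp j c i hj _ hij => by
    rw [face_eq]
    exact ((h i).face p hp j (fun h1 => hij (Finset.mem_singleton.1 h1).symm) hj c).symm⟩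

theorem diag {e : F2 O} (he : Good2 K e) {p : Pt} (hp : p ∈ K) {i : Fin 4} (hi : Odd (p i)) :
    e p i i = 0 := by
  have h := he.anti p hp i i hi hi
  rw [eq_neg_iff_add_eq_zero, ← two_smul ℚ] at h
  rw [← one_smul ℚ (e p i i), ← inv_mul_cancel₀ (two_ne_zero' ℚ), mul_smul, h, smul_zero]

theorem is2 (hK : Cx K) {e : F2 O} (he : Good2 K e) : Fm.Is2 K (tr2 K e) := by
  refine ⟨fun i j => ⟨fun p _ m hm h => if_neg fun h1 => h ?_, fun p hp m hm => ?_,
    fun p hp m hm h c => ?_⟩, fun p i j => ?_, fun p i => ?_⟩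
  · rcases Finset.mem_insert.1 hm with rfl | h2
    · exact h1.2.1
    · rw [Finset.mem_singleton.1 h2]
      exact h1.2.2
  · unfold tr2
    split_ifs with h
    · exact he.indep p hp i j m h.2.1 h.2.2 (Int.not_odd_iff_even.1 hm)
    · exact map_zero _
  · have h1 : i ≠ m := fun h1 => hm (by simp [h1])
    have h2 : j ≠ m := fun h2 => hm (by simp [h2])
    have h3 := hK p hp m c h
    rw [face_eq] at h3
    simp only [tr2, fc_ne p h1, fc_ne p h2, hp, h3, true_and]
    split_ifs with h4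
    · rw [← face_eq]
      exact (he.compat p hp m c i j h h4.1 h4.2 h1 h2).symm
    · exact map_zero _
  · unfold tr2
    by_cases h : p ∈ K ∧ Odd (p i) ∧ Odd (p j)
    · rw [if_pos h, if_pos ⟨h.1, h.2.2, h.2.1⟩, he.anti p h.1 j i h.2.2 h.2.1]
    · rw [if_neg h, if_neg fun h1 => h ⟨h1.1, h1.2.2, h1.2.1⟩, neg_zero]
  · unfold tr2
    split_ifs with h
    · exact diag he h.1 h.2.1
    · rfl

omit [Algebra ℚ O] in
theorem tr2_mem {e : F2 O} (h : In2 K k e) (p : Pt) (hp : p ∈ K) (i j : Fin 4) :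
    tr2 K e p i j ∈ Fm.MC k := by
  unfold tr2
  split_ifs with h1
  · exact h p hp i j h1.2.1 h1.2.2
  · exact Submodule.zero_mem _

theorem d2_mem (hK : Cx K) {e : F2 O} (he : Good2 K e) (h : In3 K b (dd2 e)) (p : Pt) (hp : p ∈ K)
    (i j m : Fin 4) : Fm.d2 (tr2 K e) p i j m ∈ Fm.MC b := by
  have h2 := is2 hK he
  have z : ∀ i j m, ¬ Odd (p i) → Fm.dM i (tr2 K e p j m) + Fm.dM j (tr2 K e p m i) +
      Fm.dM m (tr2 K e p i j) = 0 := fun i j m hi => by
    rw [(h2.cmp j m).cst p hp i hi, (h2.cmp m i).zero p hp i (by simp) hi,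
      (h2.cmp i j).zero p hp i (by simp) hi, map_zero, map_zero, add_zero, add_zero]
  have w : ∀ i m, Fm.dM i (tr2 K e p i m) + Fm.dM i (tr2 K e p m i) + Fm.dM m (tr2 K e p i i) =
      0 := fun i m => by rw [h2.skew p i m, h2.diag, map_neg, map_zero, add_neg_cancel, add_zero]
  by_cases h1 : (Odd (p i) ∧ Odd (p j) ∧ Odd (p m)) ∧ i ≠ j ∧ j ≠ m ∧ i ≠ m
  · obtain ⟨⟨a, c, d⟩, h3⟩ := h1
    simp only [Fm.d2, tr2, hp, a, c, d, and_self, if_true]
    exact h p hp i j m a c d h3.1 h3.2.1 h3.2.2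
  · have h3 : Fm.d2 (tr2 K e) p i j m = 0 := by
      simp only [not_and_or, not_not] at h1
      unfold Fm.d2
      rcases h1 with (h1 | h1 | h1) | rfl | rfl | rfl
      · exact z i j m h1
      · rw [← z j m i h1]
        abel
      · rw [← z m i j h1]
        abel
      · exact w i m
      · rw [← w j i]
        abel
      · rw [← w i j, h2.skew p i j, h2.diag]
        simp
    rw [h3]
    exact Submodule.zero_mem _

omit [Algebra ℚ O] in
theorem in2 {e : F2 O} {η : F1 O} (h : ∀ p ∈ K, ∀ i j, Fm.d1 η p i j - tr2 K e p i j ∈ Fm.MC b) :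
    In2 K b (e - dd1 η) := fun p hp i j hi hj => by
  have h1 := Submodule.neg_mem _ (h p hp i j)
  rw [neg_sub, tr2, if_pos ⟨hp, hi, hj⟩] at h1
  exact h1

end Poin

open Poin

theorem p1_dQ {n : ℕ} (hn : 0 < n) {e : F1 O} (he : Good1 (KdQ n) e) (h1 : In1 (KdQ n) k e)
    (h2 : In2 (KdQ n) b (dd1 e)) :
    ∃ g : F0 O, Good0 (KdQ n) g ∧ In0 (KdQ n) k g ∧ g 0 = 0 ∧ In1 (KdQ n) b (e - dd0 g) := by
  have h := Coh.wall_H1 (O := O) isV_zero (isV_two n) (fun _ => by simpa using hn) isV_zero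
    (KdQ_bd hn ▸ ⟨fun _ => by simp, 0, .inl rfl⟩)
  rw [← KdQ_bd hn] at h
  have h3 := is1 he
  obtain ⟨f, f1, f2, f3, f4⟩ := h k b (tr1 e) h3 (fun p hp i => by
      unfold tr1
      split_ifs with h4
      · exact h1 p hp i h4
      · exact Submodule.zero_mem _) fun p hp i j => by
    by_cases hi : Odd (p i)
    · by_cases hj : Odd (p j)
      · simp only [Fm.d1, tr1, hi, hj, if_true]
        exact h2 p hp i j hi hj
      · rw [Fm.d1, (h3 i).cst p hp j hj, (h3 j).zero p hp j (by simp) hj, map_zero, sub_zero]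
        exact Submodule.zero_mem _
    · rw [Fm.d1, (h3 j).cst p hp i hi, (h3 i).zero p hp i (by simp) hi, map_zero, sub_zero]
      exact Submodule.zero_mem _
  refine ⟨f, ⟨fun p hp j hj => f1.cst p hp j (Int.not_odd_iff_even.2 hj), fun p hp j c hj => ?_⟩,
    fun p _ => f2 p, f3, fun p hp i hi => ?_⟩
  · rw [face_eq]
    exact (f1.face p hp j (by simp) hj c).symm
  · have h4 := Submodule.neg_mem _ (f4 p hp i)
    rw [neg_sub, tr1, if_pos hi] at h4
    exact h4

theorem p2_dQ {n : ℕ} (hn : 0 < n) {e : F2 O} (he : Good2 (KdQ n) e) (h1 : In2 (KdQ n) k e)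
    (h2 : In3 (KdQ n) b (dd2 e)) :
    ∃ η : F1 O, Good1 (KdQ n) η ∧ In1 (KdQ n) k η ∧ In2 (KdQ n) b (e - dd1 η) := by
  have h := Coh.wall_H2 (O := O) isV_zero (isV_two n) fun _ => by simpa using hn
  rw [← KdQ_bd hn] at h
  obtain ⟨η, f1, f2⟩ := h k b _ (is2 (cx_KdQ n) he) (tr2_mem h1) (d2_mem (cx_KdQ n) he h2)
  exact ⟨η, good1 f1.cmp, fun p _ i _ => f1.mem p i, in2 f2⟩

theorem p2_pair {N : ℕ} (hN : 0 < N) {e e' : F2 O} (he : Good2 (KR N) e) (he' : Good2 (KB N) e')
    (hi : Inv2 e') (hag : Agree2 (KS N) e e') (h1 : In2 (KR N) k e) (h1' : In2 (KB N) k e')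
    (h2 : In3 (KR N) b (dd2 e)) (h2' : In3 (KB N) b (dd2 e')) :
    ∃ η η' : F1 O, Good1 (KR N) η ∧ Good1 (KB N) η' ∧ Inv1 η' ∧ Agree1 (KS N) η η' ∧
      In1 (KR N) k η ∧ In1 (KB N) k η' ∧ In2 (KR N) b (e - dd1 η) ∧
      In2 (KB N) b (e' - dd1 η') := by
  have cR : Cx (KR N) := cx_Kof _
  have cB : Cx (KB N) := cx_Kof _
  obtain ⟨η, η', f1, f2, f3, f4, f5, f6⟩ := Coh.pair_H2 (O := O) hN k b _ _ (is2 cR he) (is2 cB he')
    (tr2_mem h1) (tr2_mem h1') (d2_mem cR he h2) (d2_mem cB he' h2')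
    (fun p hp i j => by
      have h3 : tr2 (KB N) e' p i j = tr2 (KB N) e' (Coh.bot p) i j := by
        have h4 : Coh.bot p ∈ KB N := KB_update hp
        by_cases h : i = 3 ∨ j = 3
        · simp only [tr2, hi p i j, hi (Coh.bot p) i j, if_pos h, ite_self]
        · have h5 := not_or.1 h
          simp only [tr2, hp, true_and, hi p i j, if_neg h, Coh.bot,
            Function.update_of_ne h5.1, Function.update_of_ne h5.2]
          simp only [show Function.update p 3 0 ∈ KB N from h4, true_and]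
      rw [h3, sub_self]
      exact Submodule.zero_mem _)
    fun p hp i j => by
      have h3 : tr2 (KR N) e p i j = tr2 (KB N) e' p i j := by
        simp only [tr2, hp.1.1, hp.1.2, true_and]
        split_ifs with h
        · exact hag p hp i j h.1 h.2
        · rfl
      rw [h3, sub_self]
      exact Submodule.zero_mem _
  obtain ⟨ζ, hζ⟩ : ∃ ζ : F1 O, ∀ p i, ζ p i = if i = 3 then 0 else η' (Coh.bot p) i :=
    ⟨_, fun _ _ => rfl⟩
  have e1 : ∀ p ∈ KB N, ζ p = η' p := fun p hp => funext fun i => by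
    rw [hζ, f3 p hp]
    split_ifs with h
    · subst h
      exact ((f2.cmp 3).zero _ (KB_update hp) 3 (by simp) (by simp)).symm
    · rfl
  have g2 := good1 f2.cmp
  refine ⟨η, ζ, good1 f1.cmp, ⟨fun p hp i j a c => ?_, fun p hp j c i a d f => ?_⟩, fun p i => ?_,
    fun p hp i _ => ?_, fun p _ i _ => f1.mem p i, fun p hp i _ => ?_, in2 f5,
    fun p hp i j a c => ?_⟩
  · rw [e1 p hp]
    exact g2.indep p hp i j a c
  · rw [e1 p hp, e1 _ (cB p hp j c a)]
    exact g2.compat p hp j c i a d f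
  · rw [hζ, hζ]
    split_ifs
    · rfl
    · rw [Coh.bot, Coh.bot, Function.update_idem]
  · rw [e1 p hp.1.2, f4 p hp]
  · rw [e1 p hp]
    exact f2.mem p i
  · have h3 := in2 f6 p hp i j a c
    simp only [Pi.sub_apply, dd1, e1 p hp] at h3 ⊢
    exact h3

end Vale.Agent.P215Z
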