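import Vale.Agent.P215Z.Frm.Flat
import Vale.Agent.P215Z.Frm.CS

noncomputable section
namespace Vale.Agent.P215Z
open MvPolynomial Classical
variable {O : Type} [CommRing O] [Algebra ℚ O]

/-! F9: pull back along coordinate permutations and translations -/

namespace PullAux

theorem eps4_swap : ∀ a b : Fin 4, a ≠ b → ∀ i j k l : Fin 4,
    eps4 (Equiv.swap a b i) (Equiv.swap a b j) (Equiv.swap a b k) (Equiv.swap a b l) =
      -eps4 i j k l := by
  decide +kernel

theorem pd_renM (π : Equiv.Perm (Fin 4)) (k : Fin 4) (x : MM O) :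
    pd k (renM π x) = renM π (pd (π.symm k) x) := by
  ext a b : 1
  have := pderiv_rename π.injective (π.symm k) (x a b)
  rw [Equiv.apply_symm_apply] at this
  simpa [pd, renM] using this

theorem ev_rename (π : Equiv.Perm (Fin 4)) (k : Fin 4) (c : Bool) (f : RR O) :
    ev k c (rename π f) = rename π (ev (π.symm k) c f) := by
  have : (ev k c : RR O →ₐ[O] RR O).comp (rename π) =
      (rename π : RR O →ₐ[O] RR O).comp (ev (π.symm k) c) := by
    apply MvPolynomial.algHom_ext
    intro j
    simp only [AlgHom.comp_apply, rename_X, ev, aeval_X]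
    by_cases h : π j = k
    · have h' : j = π.symm k := by rw [← h]; simp
      rw [if_pos h, if_pos h']
      cases c <;> simp
    · have h' : ¬ j = π.symm k := by
        intro h'; apply h; rw [h']; simp
      rw [if_neg h, if_neg h', rename_X]
  exact congrArg (fun φ : RR O →ₐ[O] RR O => φ f) this

theorem evM_renM (π : Equiv.Perm (Fin 4)) (k : Fin 4) (c : Bool) (x : MM O) :
    evM k c (renM π x) = renM π (evM (π.symm k) c x) := by
  ext a b : 1
  simpa [evM, renM] using ev_rename π k c (x a b)

theorem rename_mem (π : Fin 4 → Fin 4) (b : Ideal O) {f : RR O}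
    (h : f ∈ b.map (C : O →+* RR O)) : rename π f ∈ b.map (C : O →+* RR O) := by
  have h1 := Ideal.mem_map_of_mem (rename π : RR O →ₐ[O] RR O).toRingHom h
  rw [Ideal.map_map] at h1
  have h2 : (rename π : RR O →ₐ[O] RR O).toRingHom.comp (C : O →+* RR O) = C := by
    ext r : 1
    simp
  rw [h2] at h1
  exact h1

theorem renM_one (π : Equiv.Perm (Fin 4)) : renM π (1 : MM O) = 1 := by
  unfold renM
  exact Matrix.map_one _ (map_zero _) (map_one _)

theorem renM_zero (π : Equiv.Perm (Fin 4)) : renM π (0 : MM O) = 0 := by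
  ext a b : 1
  simp [renM]

theorem renM_add (π : Equiv.Perm (Fin 4)) (x y : MM O) :
    renM π (x + y) = renM π x + renM π y := by
  ext a b : 1
  simp [renM]

theorem renM_qsmul (π : Equiv.Perm (Fin 4)) (r : ℚ) (x : MM O) :
    renM π (r • x) = r • renM π x := by
  ext a b : 1
  simp only [renM, Matrix.map_apply, Matrix.smul_apply]
  exact map_rat_smul (rename π : RR O →ₐ[O] RR O) r (x a b)

end PullAux

open PullAux

variable (π : Equiv.Perm (Fin 4)) (u : Pt)

def renU : (MM O)ˣ →* (MM O)ˣ :=
  Units.map (RingHom.mapMatrix (m := Fin 2) (rename π : RR O →ₐ[O] RR O).toRingHom).toMonoidHom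
/-- the map on cube indices -/
def affC (q : Pt) : Pt := fun j => q (π j) + u j

theorem coe_renU (g : (MM O)ˣ) : (renU π g : MM O) = renM π g := rfl
theorem affP_cell (q : Pt) : affP π u (cell q) = cell (affC π u q) := by
  funext j
  simp only [affP, cell, affC]
  ring
theorem affP_face (p : Pt) (k : Fin 4) (c : Bool) :
    affP π u (face p k c) = face (affP π u p) (π.symm k) c := by
  funext j
  by_cases h : π j = k
  · have h' : j = π.symm k := by rw [← h]; simp
    subst h'
    simp only [affP, face, Equiv.apply_symm_apply, Function.update_self]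
    cases c <;> simp <;> ring
  · have h' : ¬ j = π.symm k := by
      intro h'; apply h; rw [h']; simp
    simp only [affP, face, Function.update_of_ne h, Function.update_of_ne h']
theorem odd_affP (p : Pt) (j : Fin 4) : Odd (affP π u p j) ↔ Odd (p (π j)) := by
  simp only [affP, Int.odd_iff]
  omega
theorem affP_wv (p : Pt) : affP π u (wv p) = wv (affP π u p) := by
  funext j
  simp only [wv, odd_affP]
  simp only [affP, wv]
  split_ifs <;> ring
theorem affP_midp {v v' : Pt} : affP π u (midp v v') = midp (affP π u v) (affP π u v') := by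
  funext j
  simp only [affP, midp]
  omega
theorem adj_affP (p p' : Pt) : Adj (affP π u p) (affP π u p') ↔ Adj p p' := by
  have key : ∀ d : Pt, affP π u p' - affP π u p = (fun j => d (π j)) ↔ p' - p = d := by
    intro d
    constructor
    · intro h
      funext j
      have := congrFun h (π.symm j)
      simp only [affP, Pi.sub_apply, Equiv.apply_symm_apply] at this
      simp only [Pi.sub_apply]
      omega
    · intro h
      funext j
      have := congrFun h (π j)
      simp only [Pi.sub_apply] at this
      simp only [affP, Pi.sub_apply]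
      omega
  have he : ∀ k : Fin 4, (fun j => ee (π k) (π j)) = ee k := by
    intro k
    funext j
    simp only [ee, Pi.single_apply, π.injective.eq_iff]
  have he' : ∀ k : Fin 4, (fun j => (-ee (π k)) (π j)) = -ee k := by
    intro k
    funext j
    simp only [ee, Pi.neg_apply, Pi.single_apply, π.injective.eq_iff]
  unfold Adj IsStep
  constructor
  · rintro (h | ⟨k, h | h⟩)
    · exact Or.inl ((key 0).1 h)
    · exact Or.inr ⟨π k, Or.inl ((key _).1 (h.trans (he k).symm))⟩
    · exact Or.inr ⟨π k, Or.inr ((key _).1 (h.trans (he' k).symm))⟩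
  · rintro (h | ⟨k, h | h⟩)
    · exact Or.inl ((key 0).2 h)
    · obtain ⟨k, rfl⟩ := π.surjective k
      exact Or.inr ⟨k, Or.inl (((key _).2 h).trans (he k))⟩
    · obtain ⟨k, rfl⟩ := π.surjective k
      exact Or.inr ⟨k, Or.inr (((key _).2 h).trans (he' k))⟩
theorem isFace_affP (p p' : Pt) : IsFace (affP π u p) (affP π u p') ↔ IsFace p p' := by
  have key : ∀ j, (affP π u p j = affP π u p' j ∨
      (Odd (affP π u p' j) ∧ |affP π u p j - affP π u p' j| = 1)) ↔
      (p (π j) = p' (π j) ∨ (Odd (p' (π j)) ∧ |p (π j) - p' (π j)| = 1)) := by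
    intro j
    rw [odd_affP]
    simp only [affP, add_left_inj, add_sub_add_right_eq_sub]
  unfold IsFace
  constructor
  · intro h j
    obtain ⟨j, rfl⟩ := π.surjective j
    exact (key j).1 (h j)
  · intro h j
    exact (key j).2 (h (π j))
theorem affP_bijective : Function.Bijective (affP π u) := by
  constructor
  · intro p p' h
    funext j
    have := congrFun h (π.symm j)
    simpa [affP] using this
  · intro p
    refine ⟨fun j => p (π.symm j) - 2 * u (π.symm j), ?_⟩
    funext j
    simp [affP]
theorem inI_renM (b : Ideal O) (x : MM O) : InI b (renM π x) ↔ InI b x := by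
  constructor
  · intro h a a'
    have := rename_mem π.symm b (h a a')
    simpa [renM, rename_rename] using this
  · intro h a a'
    exact rename_mem π b (h a a')
theorem at0_renM (x : MM O) : at0 (renM π x) = at0 x := by
  ext a b : 1
  simp [at0, renM, constantCoeff_rename]
theorem renM_cst (y : M2 O) : renM π (cst y) = cst y := by
  ext a b : 1
  simp [cst, renM]
theorem renM_mul (x y : MM O) : renM π (x * y) = renM π x * renM π y := by
  unfold renM
  exact Matrix.map_mul (f := (rename π : RR O →ₐ[O] RR O))
theorem renM_sub (x y : MM O) : renM π (x - y) = renM π x - renM π y := by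
  ext a b : 1
  simp [renM]
theorem trace_renM (x : MM O) : Matrix.trace (renM π x) = rename π (Matrix.trace x) := by
  simp [renM, Matrix.trace]
theorem rename_hat (τ σ : Pt) (m : Fin 4) :
    rename π (hat (affP π u τ) (affP π u σ) (π.symm m) : RR O) = hat τ σ m := by
  have h1 : (affP π u τ (π.symm m) = affP π u σ (π.symm m) + 1) ↔ τ m = σ m + 1 := by
    simp only [affP, Equiv.apply_symm_apply]
    omega
  have h2 : (affP π u τ (π.symm m) = affP π u σ (π.symm m) - 1) ↔ τ m = σ m - 1 := by
    simp only [affP, Equiv.apply_symm_apply]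
    omega
  unfold hat
  simp only [h1, h2]
  split_ifs <;> simp
theorem eps4_perm (i j k l : Fin 4) :
    eps4 (π i) (π j) (π k) (π l) = (Equiv.Perm.sign π : ℤ) * eps4 i j k l := by
  induction π using Equiv.Perm.swap_induction_on with
  | one => simp
  | swap_mul f a b hab ih =>
    simp only [Equiv.Perm.mul_apply]
    rw [eps4_swap a b hab, ih, Equiv.Perm.sign_mul, Equiv.Perm.sign_swap hab]
    simp
theorem Good1.pull {K : Set Pt} {A : F1 O} (hA : Good1 K A) :
    Good1 (affP π u ⁻¹' K) (pull π u A) := by
  constructor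
  · intro p hp i j hi hj
    have h1 : Odd (affP π u p (π.symm i)) := by rw [odd_affP]; simpa using hi
    have h2 : Even (affP π u p (π.symm j)) := by
      rw [← Int.not_odd_iff_even, odd_affP]; simpa using hj
    simp only [P215Z.pull]
    rw [pd_renM, hA.indep _ hp _ _ h1 h2, renM_zero]
  · intro p hp k c i hk hi hik
    have h1 : Odd (affP π u p (π.symm i)) := by rw [odd_affP]; simpa using hi
    have h2 : Odd (affP π u p (π.symm k)) := by rw [odd_affP]; simpa using hk
    simp only [P215Z.pull]
    rw [evM_renM, affP_face, hA.compat _ hp _ c _ h2 h1 (by simpa using hik)]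
theorem In1.pull {K : Set Pt} {A : F1 O} {b : Ideal O} (hA : In1 K b A) :
    In1 (affP π u ⁻¹' K) b (pull π u A) := by
  intro p hp i hi
  have h1 : Odd (affP π u p (π.symm i)) := by rw [odd_affP]; simpa using hi
  simp only [P215Z.pull]
  rw [inI_renM]
  exact hA _ hp _ h1
theorem curv_pull (A : F1 O) (p : Pt) (i j : Fin 4) :
    curv (pull π u A) p i j = renM π (curv A (affP π u p) (π.symm i) (π.symm j)) := by
  simp only [curv, dd1, pull, Ring.lie_def, renM_add, renM_sub, renM_mul, pd_renM]
theorem csd_pull (hπ : Equiv.Perm.sign π = 1) (A : F1 O) (τ : Pt) (l : Fin 4) :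
    itg (csd (pull π u A) τ l) = itg (csd A (affP π u τ) (π.symm l)) := by
  rw [← itg_rename π (csd A (affP π u τ) (π.symm l))]
  congr 1
  unfold csd
  simp only [map_sum]
  rw [← Equiv.sum_comp π]
  refine Finset.sum_congr rfl fun i _ => ?_
  rw [← Equiv.sum_comp π]
  refine Finset.sum_congr rfl fun j _ => ?_
  rw [← Equiv.sum_comp π]
  refine Finset.sum_congr rfl fun k _ => ?_
  have he : eps4 l (π i) (π j) (π k) = eps4 (π.symm l) i j k := by
    have := eps4_perm π (π.symm l) i j k
    rw [Equiv.apply_symm_apply, hπ] at this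
    simpa using this
  rw [he, map_zsmul, ← trace_renM]
  simp only [pull, Equiv.symm_apply_apply, pd_renM, renM_add, renM_mul, renM_qsmul]
theorem oX_image (X : Finset Pt) (τ : Pt) (l : Fin 4) :
    oX (X.image (affC π u)) (affP π u τ) (π.symm l) = oX X τ l := by
  have key : ∀ c, (∃ q ∈ X.image (affC π u), affP π u τ = face (cell q) (π.symm l) c) ↔
      ∃ q ∈ X, τ = face (cell q) l c := by
    intro c
    constructor
    · rintro ⟨q, hq, h⟩
      obtain ⟨q, hq', rfl⟩ := Finset.mem_image.1 hq
      rw [← affP_cell, ← affP_face] at h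
      exact ⟨q, hq', (affP_bijective π u).1 h⟩
    · rintro ⟨q, hq, rfl⟩
      exact ⟨_, Finset.mem_image_of_mem _ hq, by rw [← affP_cell, ← affP_face]⟩
  unfold oX
  simp only [key]
theorem Bd_image (X : Finset Pt) (f : Pt → Fin 4 → O) :
    Bd (X.image (affC π u)) f = Bd X fun τ l => f (affP π u τ) (π.symm l) := by
  have hinj : Function.Injective (affC π u) := by
    intro p p' h
    funext j
    have := congrFun h (π.symm j)
    simpa [affC] using this
  unfold Bd
  rw [Finset.sum_image fun x _ y _ h => hinj h]
  refine Finset.sum_congr rfl fun q _ => ?_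
  rw [← Equiv.sum_comp π.symm]
  refine Finset.sum_congr rfl fun l _ => ?_
  simp only [affP_face, affP_cell]
theorem step_pull {a : Ideal O} (ha : IsNilpotent a) {K : Set Pt} {A : F1 O} (hA : In1 K a A)
    {p p' : Pt} (hp : affP π u p ∈ K) (hp' : affP π u p' ∈ K) :
    step (pull π u A) p p' = renU π (step A (affP π u p) (affP π u p')) := by
  have hinn : ∀ q : Pt, affP π u q ∈ K → ∀ k c, Odd (q k) →
      inn (pull π u A) q k c = renU π (inn A (affP π u q) (π.symm k) c) := by
    intro q hq k c hk
    have h1 : Odd (affP π u q (π.symm k)) := by rw [odd_affP]; simpa using hk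
    have h2 := hA _ hq _ h1
    have h3 : InI a (pull π u A q k) := by
      simp only [pull]
      rw [inI_renM]
      exact h2
    obtain ⟨s1, s2⟩ := inn_spec ha c h2
    apply Units.ext
    rw [coe_renU]
    symm
    apply inn_unique ha h3
    · rw [pd_renM, s1, renM_mul]
      rfl
    · rw [evM_renM, s2, renM_one]
  by_cases h1 : ∃ x : Fin 4 × Bool, Odd (p' x.1) ∧ p = face p' x.1 x.2
  · obtain ⟨⟨k, c⟩, hk, rfl⟩ := h1
    have hk' : Odd (affP π u p' (π.symm k)) := by rw [odd_affP]; simpa using hk
    rw [step_in _ c hk, affP_face, step_in _ c hk', hinn p' hp' k c hk]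
  by_cases h2 : ∃ x : Fin 4 × Bool, Odd (p x.1) ∧ p' = face p x.1 x.2
  · obtain ⟨⟨k, c⟩, hk, rfl⟩ := h2
    have hk' : Odd (affP π u p (π.symm k)) := by rw [odd_affP]; simpa using hk
    rw [step_out _ c hk, affP_face, step_out _ c hk', hinn p hp k c hk, map_inv]
  have key : ∀ q q' : Pt, (∃ x : Fin 4 × Bool, Odd (affP π u q' x.1) ∧
      affP π u q = face (affP π u q') x.1 x.2) →
      ∃ x : Fin 4 × Bool, Odd (q' x.1) ∧ q = face q' x.1 x.2 := by
    rintro q q' ⟨⟨k, c⟩, hk, h⟩
    refine ⟨(π k, c), (odd_affP π u q' k).1 hk, (affP_bijective π u).1 ?_⟩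
    rw [affP_face, Equiv.symm_apply_apply]
    exact h
  unfold step
  rw [dif_neg h1, dif_neg h2, dif_neg (fun h => h1 (key _ _ h)), dif_neg (fun h => h2 (key _ _ h)),
    map_one]

end Vale.Agent.P215Z
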